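import Vale.Agent.P318.R2.H356.Chr

/-!
# Averages over conjugates
-/

open Finset

set_option linter.unusedSectionVars false

namespace Vale.Agent.P318.R2.H356

open Classical in
/-- averaging a cut over the conjugates of a subgroup -/
lemma cut_avg {G : Type*} [Group G] [Fintype G] {α : G → ℂ} {c : G → ℝ} (hc : ∀ g, 0 ≤ c g)
    (hcl : ∀ x g, c (x * g * x⁻¹) = c g) (L H : Subgroup G) {κ : ℝ}
    (hpt : ∀ g, κ * ((univ.filter fun y => y ∈ L ∧ y * g * y⁻¹ ∉ H).card : ℝ) ≤
      ((univ.filter fun y => y ∈ L).card : ℝ) * (1 - ‖α g‖)) :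
    κ * ∑ g with g ∉ H, c g ≤ ∑ g, c g * (1 - ‖α g‖) := by
  have h1 : ∀ y : G, ∑ g with g ∉ H, c g = ∑ g, if y * g * y⁻¹ ∉ H then c g else 0 := by
    intro y
    rw [sum_filter, ← Equiv.sum_comp (MulAut.conj y).toEquiv]
    apply sum_congr rfl
    intro g _
    change (if y * g * y⁻¹ ∉ H then c (y * g * y⁻¹) else 0) = _
    rw [hcl]
  have hL : (0 : ℝ) < ((univ.filter fun y => y ∈ L).card : ℝ) := by
    apply Nat.cast_pos.2
    exact card_pos.2 ⟨1, by simp [L.one_mem]⟩
  have h2 : ((univ.filter fun y => y ∈ L).card : ℝ) * ∑ g with g ∉ H, c g =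
      ∑ g, c g * ((univ.filter fun y => y ∈ L ∧ y * g * y⁻¹ ∉ H).card : ℝ) := by
    calc ((univ.filter fun y => y ∈ L).card : ℝ) * ∑ g with g ∉ H, c g
        = ∑ y with y ∈ L, ∑ g with g ∉ H, c g := by
          rw [sum_const, nsmul_eq_mul]
      _ = ∑ y with y ∈ L, ∑ g, (if y * g * y⁻¹ ∉ H then c g else 0) :=
          sum_congr rfl fun y _ => h1 y
      _ = ∑ g, ∑ y with y ∈ L, (if y * g * y⁻¹ ∉ H then c g else 0) := sum_comm
      _ = ∑ g, c g * ((univ.filter fun y => y ∈ L ∧ y * g * y⁻¹ ∉ H).card : ℝ) := by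
          apply sum_congr rfl
          intro g _
          rw [← sum_filter, sum_const, filter_filter, nsmul_eq_mul, mul_comm]
  have h3 : ((univ.filter fun y => y ∈ L).card : ℝ) * (κ * ∑ g with g ∉ H, c g) ≤
      ((univ.filter fun y => y ∈ L).card : ℝ) * ∑ g, c g * (1 - ‖α g‖) := by
    calc ((univ.filter fun y => y ∈ L).card : ℝ) * (κ * ∑ g with g ∉ H, c g)
        = κ * (((univ.filter fun y => y ∈ L).card : ℝ) * ∑ g with g ∉ H, c g) := by ring
      _ = ∑ g, c g * (κ * ((univ.filter fun y => y ∈ L ∧ y * g * y⁻¹ ∉ H).card : ℝ)) := by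
          rw [h2, mul_sum]
          apply sum_congr rfl
          intro g _
          ring
      _ ≤ ∑ g, c g * (((univ.filter fun y => y ∈ L).card : ℝ) * (1 - ‖α g‖)) :=
          sum_le_sum fun g _ => mul_le_mul_of_nonneg_left (hpt g) (hc g)
      _ = _ := by
          rw [mul_sum]
          apply sum_congr rfl
          intro g _
          ring
  exact le_of_mul_le_mul_left h3 hL

lemma pinv_self {P : Type*} (e : Equiv.Perm P) (p : P) : e⁻¹ (e p) = p := e.symm_apply_apply p

lemma pself_inv {P : Type*} (e : Equiv.Perm P) (p : P) : e (e⁻¹ p) = p := e.apply_symm_apply p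

/-- A point is bad for `σ` if `σ` moves its stabiliser. -/
def Bad {L P : Type*} [Group L] (φ : L →* Equiv.Perm P) (σ : L →* L) (p : P) : Prop :=
  ∃ μ : L, φ μ p = p ∧ φ (σ μ) p ≠ p

open Classical in
/-- the average lemma -/
lemma exists_large_support {L P : Type*} [Group L] [Fintype L] [Fintype P] [DecidableEq P]
    (φ : L →* Equiv.Perm P) (σ : L →* L) :
    ∃ x : L, (univ.filter fun p => Bad φ σ p).card ≤ 2 * (φ (σ x * x⁻¹)).support.card := by
  -- the size of the support
  have h1 : ∀ x : L, (φ (σ x * x⁻¹)).support.card =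
      (univ.filter fun p => φ (σ x) p ≠ φ x p).card := by
    intro x
    symm
    apply card_bij' (fun p _ => φ x p) (fun q _ => (φ x)⁻¹ q)
    · intro p hp
      rw [mem_filter] at hp
      rw [Equiv.Perm.mem_support, map_mul, Equiv.Perm.mul_apply, map_inv,
        pinv_self]
      exact hp.2
    · intro q hq
      rw [Equiv.Perm.mem_support, map_mul, Equiv.Perm.mul_apply, map_inv] at hq
      rw [mem_filter]
      refine ⟨mem_univ _, ?_⟩
      rw [pself_inv]
      exact hq
    · intro p _; simp
    · intro q _; simp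
  -- every bad point is moved by half of the elements
  have h2 : ∀ p, Bad φ σ p →
      Fintype.card L ≤ 2 * (univ.filter fun x : L => φ (σ x) p ≠ φ x p).card := by
    rintro p ⟨μ, hμ1, hμ2⟩
    have h3 : (univ.filter fun x : L => φ (σ x) p = φ x p).card ≤
        (univ.filter fun x : L => φ (σ x) p ≠ φ x p).card := by
      apply card_le_card_of_injOn (fun x => x * μ)
      · intro x hx
        rw [mem_coe, mem_filter] at hx
        rw [mem_coe, mem_filter]
        refine ⟨mem_univ _, ?_⟩
        intro h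
        rw [map_mul, map_mul, map_mul, Equiv.Perm.mul_apply, Equiv.Perm.mul_apply, hμ1,
          ← hx.2] at h
        exact hμ2 ((φ (σ x)).injective h)
      · intro x _ y _ hxy
        exact mul_right_cancel hxy
    have h4 := card_filter_add_card_filter_not (s := (univ : Finset L))
      (fun x : L => φ (σ x) p = φ x p)
    rw [card_univ] at h4
    change (univ.filter fun x : L => φ (σ x) p = φ x p).card +
      (univ.filter fun x : L => φ (σ x) p ≠ φ x p).card = Fintype.card L at h4
    omega
  by_contra hcon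
  push Not at hcon
  have h5 : ∑ x : L, 2 * (φ (σ x * x⁻¹)).support.card <
      ∑ _x : L, (univ.filter fun p => Bad φ σ p).card :=
    sum_lt_sum_of_nonempty ⟨1, mem_univ _⟩ fun x _ => hcon x
  have h6 : ∑ x : L, (univ.filter fun p => φ (σ x) p ≠ φ x p).card =
      ∑ p : P, (univ.filter fun x : L => φ (σ x) p ≠ φ x p).card := by
    simp_rw [card_filter]
    exact sum_comm
  rw [← mul_sum] at h5
  simp_rw [h1] at h5
  rw [h6, sum_const, card_univ, smul_eq_mul] at h5
  have h7 : (univ.filter fun p => Bad φ σ p).card * Fintype.card L ≤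
      2 * ∑ p : P, (univ.filter fun x : L => φ (σ x) p ≠ φ x p).card := by
    calc (univ.filter fun p => Bad φ σ p).card * Fintype.card L
        = ∑ p with Bad φ σ p, Fintype.card L := by rw [sum_const, smul_eq_mul]
      _ ≤ ∑ p with Bad φ σ p, 2 * (univ.filter fun x : L => φ (σ x) p ≠ φ x p).card :=
          sum_le_sum fun p hp => h2 p (mem_filter.1 hp).2
      _ ≤ ∑ p : P, 2 * (univ.filter fun x : L => φ (σ x) p ≠ φ x p).card :=
          sum_le_sum_of_subset (filter_subset _ _)
      _ = _ := by rw [mul_sum]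
  rw [mul_comm (Fintype.card L)] at h5
  omega

open Classical in
/-- counting with a transitive action -/
lemma card_trans {L P : Type*} [Group L] [Fintype L] [Fintype P] (φ : L →* Equiv.Perm P)
    (htr : ∀ p q : P, ∃ x : L, φ x p = q) (p0 : P) (B : Finset P) :
    Fintype.card P * (univ.filter fun y : L => φ y⁻¹ p0 ∈ B).card = B.card * Fintype.card L := by
  have h1 : ∀ q : P, (univ.filter fun y : L => φ y⁻¹ p0 = q).card =
      (univ.filter fun y : L => φ y⁻¹ p0 = p0).card := by
    intro q
    obtain ⟨x, hx⟩ := htr q p0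
    apply card_bij' (fun y _ => y * x⁻¹) (fun y _ => y * x)
    · intro y hy
      rw [mem_filter] at hy ⊢
      refine ⟨mem_univ _, ?_⟩
      rw [mul_inv_rev, inv_inv, map_mul, Equiv.Perm.mul_apply, hy.2, hx]
    · intro y hy
      rw [mem_filter] at hy ⊢
      refine ⟨mem_univ _, ?_⟩
      rw [mul_inv_rev, map_mul, Equiv.Perm.mul_apply, hy.2, map_inv, ← hx,
        pinv_self]
    · intro y _; simp
    · intro y _; simp
  have h2 : (univ.filter fun y : L => φ y⁻¹ p0 ∈ B).card =
      B.card * (univ.filter fun y : L => φ y⁻¹ p0 = p0).card := by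
    have h3 := card_eq_sum_card_fiberwise (s := univ.filter fun y : L => φ y⁻¹ p0 ∈ B)
      (t := B) (f := fun y => φ y⁻¹ p0) (fun y hy => (mem_filter.1 hy).2)
    rw [h3]
    have h4 : ∀ q ∈ B, ((univ.filter fun y : L => φ y⁻¹ p0 ∈ B).filter
        fun y => φ y⁻¹ p0 = q).card = (univ.filter fun y : L => φ y⁻¹ p0 = p0).card := by
      intro q hq
      rw [← h1 q, filter_filter]
      congr 1
      ext y
      simp only [mem_filter, mem_univ, true_and]
      constructor
      · rintro ⟨-, h⟩; exact h
      · intro h; exact ⟨by rw [h]; exact hq, h⟩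
    rw [sum_congr rfl h4, sum_const, smul_eq_mul]
  have h5 : Fintype.card L = Fintype.card P *
      (univ.filter fun y : L => φ y⁻¹ p0 = p0).card := by
    have h3 := card_eq_sum_card_fiberwise (s := (univ : Finset L))
      (t := (univ : Finset P)) (f := fun y => φ y⁻¹ p0) (fun y _ => mem_univ _)
    rw [card_univ] at h3
    rw [h3, sum_congr rfl (fun q _ => h1 q), sum_const, smul_eq_mul, card_univ]
  rw [h2, h5]
  ring

end Vale.Agent.P318.R2.H356
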