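import Vale.Agent.P318.R2.H356.Sd

/-!
# An element which moves a minimal factor
-/

open Finset

namespace Vale.Agent.P318.R2.H356

theorem comm_le {G : Type*} [Group G] [Fintype G] {α : G → ℂ} (hα : IsChr α)
    {N Z0 L : Subgroup G} [hN : N.Normal]
    (hZ0 : ∀ z ∈ Z0, ‖α z‖ = 1) (hZ0n : ∀ g : G, ∀ z ∈ Z0, g * z * g⁻¹ ∈ Z0) (hZL : Z0 ≤ L)
    (hLN : L ≤ N) (hnorm : ∀ n ∈ N, ∀ x ∈ L, n * x * n⁻¹ ∈ L)
    (hmax : ∀ R : Subgroup G, Z0 ≤ R → R ≤ L → (∀ x ∈ L, ∀ r ∈ R, x * r * x⁻¹ ∈ R) →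
      R = Z0 ∨ R = L)
    {g : G} (hg : ¬ ∀ x ∈ L, g * x * g⁻¹ ∈ L) {a b : G} (ha : a ∈ L) (hb : b ∈ L) :
    sd α (a * b * a⁻¹ * b⁻¹) ≤ 4 * sd α g := by
  classical
  -- the conjugate of `L`
  set L' : Subgroup G := L.map (MulAut.conj g).toMonoidHom with hL'
  have hmem : ∀ x, x ∈ L' ↔ g⁻¹ * x * g ∈ L := by
    intro x
    constructor
    · rintro ⟨y, hy, rfl⟩
      have : g⁻¹ * ((MulAut.conj g).toMonoidHom y) * g = y := by
        simp only [MulEquiv.toMonoidHom_eq_coe, MonoidHom.coe_coe, MulAut.conj_apply]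
        group
      rw [this]; exact hy
    · intro hx
      refine ⟨g⁻¹ * x * g, hx, ?_⟩
      simp only [MulEquiv.toMonoidHom_eq_coe, MonoidHom.coe_coe, MulAut.conj_apply]
      group
  have hZL' : Z0 ≤ L ⊓ L' := by
    intro z hz
    refine ⟨hZL hz, (hmem z).2 ?_⟩
    have := hZ0n g⁻¹ z hz
    rw [inv_inv] at this
    exact hZL this
  have hR : ∀ x ∈ L, ∀ r ∈ L ⊓ L', x * r * x⁻¹ ∈ L ⊓ L' := by
    intro x hx r hr
    refine ⟨hnorm x (hLN hx) r hr.1, (hmem _).2 ?_⟩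
    have h1 := (hmem r).1 hr.2
    have h2 : g⁻¹ * x * g ∈ N := by
      have := hN.conj_mem x (hLN hx) g⁻¹
      rwa [inv_inv] at this
    have h3 := hnorm _ h2 _ h1
    have h4 : g⁻¹ * x * g * (g⁻¹ * r * g) * (g⁻¹ * x * g)⁻¹ = g⁻¹ * (x * r * x⁻¹) * g := by
      group
    rwa [h4] at h3
  have hinf : L ⊓ L' = Z0 := by
    rcases hmax (L ⊓ L') hZL' inf_le_left hR with h | h
    · exact h
    · exfalso
      apply hg
      have h1 : L ≤ L' := by rw [← h]; exact inf_le_right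
      have h2 : Nat.card L' = Nat.card L := by
        rw [hL']
        exact Nat.card_congr
          (L.equivMapOfInjective _ (MulAut.conj g).injective).toEquiv.symm
      have h3 : L = L' := Subgroup.eq_of_le_of_card_ge h1 h2.le
      intro x hx
      have h4 : g * x * g⁻¹ ∈ L' := by
        rw [hmem]
        have : g⁻¹ * (g * x * g⁻¹) * g = x := by group
        rw [this]; exact hx
      rwa [← h3] at h4
  -- the elements
  set h := a⁻¹ with hh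
  have hhL : h ∈ L := L.inv_mem ha
  set y := g * h * g⁻¹ with hy
  have hyN : y ∈ N := hN.conj_mem h (hLN hhL) g
  have hyL' : y ∈ L' := by
    rw [hmem]
    have : g⁻¹ * y * g = h := by rw [hy]; group
    rw [this]; exact hhL
  have hz : y * b * y⁻¹ * b⁻¹ ∈ Z0 := by
    rw [← hinf]
    refine ⟨L.mul_mem (hnorm y hyN b hb) (L.inv_mem hb), (hmem _).2 ?_⟩
    have h1 : g⁻¹ * b * g ∈ N := by
      have := hN.conj_mem b (hLN hb) g⁻¹
      rwa [inv_inv] at this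
    have h2 := hnorm _ h1 _ (L.inv_mem hhL)
    have h3 := L.mul_mem hhL h2
    have h4 : h * (g⁻¹ * b * g * h⁻¹ * (g⁻¹ * b * g)⁻¹) = g⁻¹ * (y * b * y⁻¹ * b⁻¹) * g := by
      rw [hy]; group
    rwa [h4] at h3
  set m := g * h * g⁻¹ * h⁻¹ with hm
  have h1 : sd α m ≤ 2 * sd α g := sd_comm hα g h
  have h2 : sd α (m * b * m⁻¹ * b⁻¹) ≤ 2 * sd α m := sd_comm hα m b
  have h3 : m * b * m⁻¹ * b⁻¹ =
      (y * (a * b * a⁻¹ * b⁻¹) * y⁻¹) * (y * b * y⁻¹ * b⁻¹) := by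
    rw [hm, hy, hh]; group
  rw [h3, sd_mul_of_one hα (hZ0 _ hz), sd_conj hα] at h2
  linarith

end Vale.Agent.P318.R2.H356
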