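import Mathlib

/-!
# Two structural classes of groups (definitions only)
-/

namespace Vale.Agent.P318.R2.H356

/-- `T` has a split BN-pair of rank one: `T = U H ∪ U n H U`, `n ∉ U H`, with `H` commutative,
normalized by `n` and normalizing `U`, `T` is generated by `U` and `n U n⁻¹`, and some
`n⁻¹ k n k⁻¹`, `k ∈ H`, centralizes no nontrivial element of `U`. -/
def RankOne (T : Type) [Group T] : Prop :=
  ∃ (U H : Subgroup T) (n : T), (∀ h ∈ H, ∀ u ∈ U, h * u * h⁻¹ ∈ U) ∧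
    (∀ h ∈ H, ∀ k ∈ H, h * k = k * h) ∧ (∀ h ∈ H, n⁻¹ * h * n ∈ H) ∧
    (∀ x, (∃ u ∈ U, ∃ h ∈ H, x = u * h) ∨ ∃ u ∈ U, ∃ h ∈ H, ∃ v ∈ U, x = u * n * h * v) ∧
    (∀ u ∈ U, ∀ h ∈ H, n ≠ u * h) ∧ U ⊔ U.map (MulAut.conj n).toMonoidHom = ⊤ ∧
    ∃ k ∈ H, ∀ u ∈ U, (n⁻¹ * k * n * k⁻¹) * u = u * (n⁻¹ * k * n * k⁻¹) → u = 1

/-- `A` and `B` are the images of the two unipotent triangular subgroups of `SL(2, F)` under a
homomorphism. -/
def Opposite (F : Type) [Field F] {T : Type} [Group T] (A B : Subgroup T) : Prop :=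
  ∃ f : Matrix.SpecialLinearGroup (Fin 2) F →* T,
    (∀ y, y ∈ A ↔ ∃ g : Matrix.SpecialLinearGroup (Fin 2) F,
      (g : Matrix (Fin 2) (Fin 2) F) 0 0 = 1 ∧ (g : Matrix (Fin 2) (Fin 2) F) 1 1 = 1 ∧
      (g : Matrix (Fin 2) (Fin 2) F) 0 1 = 0 ∧ f g = y) ∧
    (∀ y, y ∈ B ↔ ∃ g : Matrix.SpecialLinearGroup (Fin 2) F,
      (g : Matrix (Fin 2) (Fin 2) F) 0 0 = 1 ∧ (g : Matrix (Fin 2) (Fin 2) F) 1 1 = 1 ∧
      (g : Matrix (Fin 2) (Fin 2) F) 1 0 = 0 ∧ f g = y)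

/-- Every nontrivial commutator map `b ↦ [a, b]` from `B` has the member `C` of `S` as image. -/
def Special {T : Type} [Group T] (S : Set (Subgroup T)) (A B : Subgroup T) : Prop :=
  ∃ C ∈ S, ∀ a ∈ A, a ≠ 1 → ∀ y ∈ C, ∃ b ∈ B, a * b * a⁻¹ * b⁻¹ = y

/-- `T` is generated by `k` members of a conjugacy class `S` of commutative subgroups, any two of
which commute, or generate an image of `SL(2, F)`, or have all commutator groups in `S`; different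
members of `S` commute with different members of `S`. -/
def RootGen (T : Type) [Group T] (k : ℕ) : Prop :=
  ∃ (F : Type) (_ : Field F) (_ : Finite F) (S : Set (Subgroup T)), 5 < Nat.card F ∧
    (∀ A ∈ S, ∀ a ∈ A, ∀ b ∈ A, a * b = b * a) ∧
    (∀ A ∈ S, ∀ g : T, A.map (MulAut.conj g).toMonoidHom ∈ S) ∧
    (∀ A ∈ S, ∀ B ∈ S, ∃ g : T, B = A.map (MulAut.conj g).toMonoidHom) ∧
    (∀ A ∈ S, ∀ B ∈ S, (∀ a ∈ A, ∀ b ∈ B, a * b = b * a) ∨ Opposite F A B ∨ Special S A B) ∧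
    (∀ A ∈ S, ∀ B ∈ S, (∀ D ∈ S, (∀ a ∈ A, ∀ d ∈ D, a * d = d * a) ↔
      ∀ b ∈ B, ∀ d ∈ D, b * d = d * b) → A = B) ∧
    ∃ A : Fin k → Subgroup T, (∀ i, A i ∈ S) ∧ ⨆ i, A i = ⊤

end Vale.Agent.P318.R2.H356
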