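import Vale.Agent.P318.R2.H356.Chr

/-!
# A normalised irreducible character and a normal subgroup which is abelian modulo its kernel
-/

open Finset
open scoped ComplexConjugate InnerProductSpace

set_option linter.unusedSectionVars false

namespace Vale.Agent.P318.R2.H356

variable {G : Type*} [Group G] [Fintype G] {α : G → ℂ}

section
variable {A : Subgroup G} [Fintype A]

/-- the value of a character of the abelianization -/
noncomputable def ch (l : AddChar (Additive (Abelianization A)) ℂ) (a : A) : ℂ :=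
  l (Additive.ofMul (Abelianization.of a))

lemma ch_mul (l : AddChar (Additive (Abelianization A)) ℂ) (a b : A) :
    ch l (a * b) = ch l a * ch l b := by
  unfold ch
  rw [map_mul, ofMul_mul, AddChar.map_add_eq_mul]

lemma ch_one (l : AddChar (Additive (Abelianization A)) ℂ) : ch l (1 : A) = 1 := by
  unfold ch
  rw [map_one, ofMul_one, AddChar.map_zero_eq_one]

lemma norm_ch (l : AddChar (Additive (Abelianization A)) ℂ) (a : A) : ‖ch l a‖ = 1 :=
  l.norm_apply _

lemma ch_inv (l : AddChar (Additive (Abelianization A)) ℂ) (a : A) :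
    ch l a⁻¹ = conj (ch l a) := by
  unfold ch
  rw [map_inv, ofMul_inv, AddChar.map_neg_eq_conj]

lemma ch_mul_conj (l : AddChar (Additive (Abelianization A)) ℂ) (a : A) :
    ch l a * conj (ch l a) = 1 := by
  rw [Complex.mul_conj', norm_ch]; norm_num

/-- the subgroup fixing a character of a normal subgroup -/
def Fx [A.Normal] (l : AddChar (Additive (Abelianization A)) ℂ) : Subgroup G where
  carrier := {g | ∀ a : A, ch l (MulAut.conjNormal g a) = ch l a}
  mul_mem' := by
    intro g h hg hh a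
    rw [map_mul, MulAut.mul_apply, hg, hh]
  one_mem' := by intro a; simp
  inv_mem' := by
    intro g hg a
    have h := hg (MulAut.conjNormal g⁻¹ a)
    rw [← MulAut.mul_apply, ← map_mul, mul_inv_cancel, map_one, MulAut.one_apply] at h
    exact h.symm

lemma mem_Fx [A.Normal] {l : AddChar (Additive (Abelianization A)) ℂ} {g : G} :
    g ∈ Fx l ↔ ∀ a : A, ch l (MulAut.conjNormal g a) = ch l a := Iff.rfl

/-- the spectral projection of `ξ` (times `|A|`) -/
noncomputable def wv (ξ : Sp G) (l : AddChar (Additive (Abelianization A)) ℂ) : Sp G :=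
  ∑ a : A, conj (ch l a) • U (a : G) ξ

lemma U_wv (ξ : Sp G) (l : AddChar (Additive (Abelianization A)) ℂ) (b : A) :
    U (b : G) (wv ξ l) = ch l b • wv ξ l := by
  unfold wv
  rw [map_sum, smul_sum]
  conv_rhs => rw [← Equiv.sum_comp (Equiv.mulLeft b)]
  apply sum_congr rfl
  intro a _
  rw [map_smul, ← U_mul, Equiv.coe_mulLeft, ch_mul, smul_smul, map_mul, ← mul_assoc, ch_mul_conj,
    one_mul]
  rfl

lemma inner_wv (ξ : Sp G) (l : AddChar (Additive (Abelianization A)) ℂ) {x : Sp G}
    (hx : ∀ b : A, U (b : G) x = ch l b • x) :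
    ⟪wv ξ l, x⟫_ℂ = Fintype.card A * ⟪ξ, x⟫_ℂ := by
  unfold wv
  rw [sum_inner]
  have h : ∀ a : A, ⟪conj (ch l a) • U (a : G) ξ, x⟫_ℂ = ⟪ξ, x⟫_ℂ := by
    intro a
    rw [inner_smul_left, inner_U_left]
    have h1 := hx a⁻¹
    rw [Subgroup.coe_inv] at h1
    rw [h1, inner_smul_right, ch_inv, Complex.conj_conj, ← mul_assoc, ch_mul_conj, one_mul]
  simp_rw [h]
  rw [sum_const, card_univ, nsmul_eq_mul]

/-- `∑ a, conj (ch a) α (g a)` -/
noncomputable def bt (α : G → ℂ) (g : G) (l : AddChar (Additive (Abelianization A)) ℂ) : ℂ :=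
  ∑ a : A, conj (ch l a) * α (g * a)

lemma bt_eq {ξ : Sp G} (hξ : ∀ g, α g = ⟪ξ, U g ξ⟫_ℂ) (g : G)
    (l : AddChar (Additive (Abelianization A)) ℂ) : bt α g l = ⟪ξ, U g (wv ξ l)⟫_ℂ := by
  unfold bt wv
  rw [map_sum, inner_sum]
  apply sum_congr rfl
  intro a _
  rw [map_smul, inner_smul_right, ← U_mul, ← hξ]

lemma wv_fix [A.Normal] (ξ : Sp G) {l : AddChar (Additive (Abelianization A)) ℂ} {g : G}
    (hg : g ∈ Fx l) (b : A) : U (b : G) (U g (wv ξ l)) = ch l b • U g (wv ξ l) := by
  have h1 : (b : G) * g = g * ((MulAut.conjNormal g⁻¹ b : A) : G) := by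
    rw [MulAut.conjNormal_apply]; group
  rw [← U_mul, h1, U_mul, U_wv, map_smul, (Fx l).inv_mem hg b]

lemma bt_one_eq [A.Normal] {ξ : Sp G} (hξ : ∀ g, α g = ⟪ξ, U g ξ⟫_ℂ)
    (l : AddChar (Additive (Abelianization A)) ℂ) :
    (Fintype.card A : ℂ) * bt α 1 l = ((‖wv ξ l‖ ^ 2 : ℝ) : ℂ) := by
  have h2 := inner_wv ξ l (wv_fix ξ (Fx l).one_mem)
  rw [← bt_eq hξ, U_one] at h2
  rw [← h2, inner_self_eq_norm_sq_to_K]
  simp

lemma bt_one_real [A.Normal] (hα : IsChr α) (l : AddChar (Additive (Abelianization A)) ℂ) :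
    bt α 1 l = (((bt α 1 l).re : ℝ) : ℂ) ∧ 0 ≤ (bt α 1 l).re := by
  obtain ⟨ξ, hξ⟩ := hα.rep
  have h := bt_one_eq hξ l
  have hA : (Fintype.card A : ℂ) ≠ 0 := Nat.cast_ne_zero.2 Fintype.card_ne_zero
  have h1 : bt α 1 l = ((‖wv ξ l‖ ^ 2 / Fintype.card A : ℝ) : ℂ) := by
    push_cast at h ⊢
    rw [← h]
    field_simp
  rw [h1, Complex.ofReal_re]
  exact ⟨rfl, by positivity⟩

lemma bt_norm_le [A.Normal] (hα : IsChr α) {l : AddChar (Additive (Abelianization A)) ℂ} {g : G}
    (hg : g ∈ Fx l) : ‖bt α g l‖ ≤ (bt α 1 l).re := by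
  obtain ⟨ξ, hξ⟩ := hα.rep
  have hA : (0 : ℝ) < Fintype.card A := Nat.cast_pos.2 Fintype.card_pos
  have h1 := inner_wv ξ l (wv_fix ξ hg)
  rw [← bt_eq hξ] at h1
  have h3 : (Fintype.card A : ℝ) * (bt α 1 l).re = ‖wv ξ l‖ ^ 2 := by
    have h2 := congrArg Complex.re (bt_one_eq hξ l)
    rw [Complex.ofReal_re] at h2
    rw [← h2, (bt_one_real hα l).1]
    simp
  have h4 : (Fintype.card A : ℝ) * ‖bt α g l‖ ≤ (Fintype.card A : ℝ) * (bt α 1 l).re := by
    calc (Fintype.card A : ℝ) * ‖bt α g l‖ = ‖(Fintype.card A : ℂ) * bt α g l‖ := by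
          rw [norm_mul]; simp
      _ = ‖⟪wv ξ l, U g (wv ξ l)⟫_ℂ‖ := by rw [h1]
      _ ≤ ‖wv ξ l‖ * ‖U g (wv ξ l)‖ := norm_inner_le_norm _ _
      _ = (Fintype.card A : ℝ) * (bt α 1 l).re := by rw [norm_U, h3]; ring
  exact le_of_mul_le_mul_left h4 hA

lemma bt_shift [A.Normal] (hα : IsChr α)
    (hab : ∀ a ∈ A, ∀ b ∈ A, α (a * b * a⁻¹ * b⁻¹) = 1)
    (l : AddChar (Additive (Abelianization A)) ℂ) (g : G) (b : A) :
    bt α g l = ch l (MulAut.conjNormal g⁻¹ b * b⁻¹) * bt α g l := by
  have h1 : ∀ a : A, α (g * a) =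
      α (g * ((MulAut.conjNormal g⁻¹ b * b⁻¹ * a : A) : G)) := by
    intro a
    rw [← hα.cls b (g * a)]
    have h2 : (b : G) * (g * a) * (b : G)⁻¹ =
        (g * ((MulAut.conjNormal g⁻¹ b * b⁻¹ * a : A) : G)) *
          ((a : G)⁻¹ * b * ((a : G)⁻¹)⁻¹ * (b : G)⁻¹) := by
      push_cast
      rw [MulAut.conjNormal_apply]
      group
    have h3 : α ((a : G)⁻¹ * b * ((a : G)⁻¹)⁻¹ * (b : G)⁻¹) = 1 :=
      hab _ (A.inv_mem a.2) _ b.2
    rw [h2, hα.mul_of_norm_one (by rw [h3]; simp), h3, mul_one]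
  generalize (MulAut.conjNormal g⁻¹ b * b⁻¹ : A) = k at h1 ⊢
  have h5 : bt α g l = ∑ a : A, conj (ch l a) * α (g * ((k * a : A) : G)) :=
    sum_congr rfl fun a _ => congrArg (fun t => conj (ch l a) * t) (h1 a)
  conv_lhs => rw [h5]
  unfold bt
  rw [mul_sum]
  conv_rhs => rw [← Equiv.sum_comp (Equiv.mulLeft k)]
  apply sum_congr rfl
  intro a _
  rw [Equiv.coe_mulLeft, ch_mul, map_mul, ← mul_assoc, ← mul_assoc, ch_mul_conj, one_mul]

lemma bt_eq_zero [A.Normal] (hα : IsChr α)
    (hab : ∀ a ∈ A, ∀ b ∈ A, α (a * b * a⁻¹ * b⁻¹) = 1)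
    {l : AddChar (Additive (Abelianization A)) ℂ} {g : G} (hg : g ∉ Fx l) : bt α g l = 0 := by
  by_contra hne
  apply hg
  have h : g⁻¹ ∈ Fx l := by
    intro b
    have h1 := bt_shift hα hab l g b
    have h2 : ch l (MulAut.conjNormal g⁻¹ b * b⁻¹) = 1 := by
      have h3 : (ch l (MulAut.conjNormal g⁻¹ b * b⁻¹) - 1) * bt α g l = 0 := by
        rw [sub_mul, ← h1]; ring
      rcases mul_eq_zero.1 h3 with h4 | h4
      · exact sub_eq_zero.1 h4
      · exact absurd h4 hne
    rw [ch_mul, ch_inv] at h2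
    calc ch l (MulAut.conjNormal g⁻¹ b)
        = ch l (MulAut.conjNormal g⁻¹ b) * (ch l b * conj (ch l b)) := by
          rw [ch_mul_conj, mul_one]
      _ = (ch l (MulAut.conjNormal g⁻¹ b) * conj (ch l b)) * ch l b := by ring
      _ = ch l b := by rw [h2, one_mul]
  have h5 := (Fx l).inv_mem h
  rwa [inv_inv] at h5

lemma eq_one_of_mem_commutator (hα : IsChr α)
    (hab : ∀ a ∈ A, ∀ b ∈ A, α (a * b * a⁻¹ * b⁻¹) = 1) {a : A}
    (ha : a ∈ commutator A) : α (a : G) = 1 := by
  let K : Subgroup A :=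
    { carrier := {x | α (x : G) = 1}
      one_mem' := hα.one
      mul_mem' := by
        intro x y hx hy
        have hx' : α (x : G) = 1 := hx
        have hy' : α (y : G) = 1 := hy
        show α ((x * y : A) : G) = 1
        rw [Subgroup.coe_mul, hα.mul_of_norm_one (by rw [hy']; simp), hx', hy', one_mul]
      inv_mem' := by
        intro x hx
        have hx' : α (x : G) = 1 := hx
        show α ((x⁻¹ : A) : G) = 1
        rw [Subgroup.coe_inv, hα.inv, hx', map_one] }
  have h : commutator A ≤ K := by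
    rw [commutator_def, Subgroup.commutator_le]
    intro x _ y _
    exact hab _ x.2 _ y.2
  exact h ha

lemma sum_bt (hα : IsChr α)
    (hab : ∀ a ∈ A, ∀ b ∈ A, α (a * b * a⁻¹ * b⁻¹) = 1) :
    ∃ κ : ℝ, 0 < κ ∧ ∀ g, ∑ l : AddChar (Additive (Abelianization A)) ℂ, bt α g l = κ * α g := by
  classical
  have : Fintype (Additive (Abelianization A)) := Fintype.ofFinite _
  refine ⟨(Fintype.card (Additive (Abelianization A)) : ℝ) *
    ((univ.filter fun a : A => Additive.ofMul (Abelianization.of a) = 0).card : ℝ), ?_, ?_⟩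
  · apply mul_pos
    · exact Nat.cast_pos.2 Fintype.card_pos
    · apply Nat.cast_pos.2
      apply card_pos.2
      exact ⟨1, by simp⟩
  · intro g
    have h1 : ∀ a : A, ∑ l : AddChar (Additive (Abelianization A)) ℂ, conj (ch l a) =
        if Additive.ofMul (Abelianization.of a) = 0 then
          (Fintype.card (Additive (Abelianization A)) : ℂ) else 0 := by
      intro a
      have h2 : ∑ l : AddChar (Additive (Abelianization A)) ℂ, ch l a =
        if Additive.ofMul (Abelianization.of a) = 0 then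
          (Fintype.card (Additive (Abelianization A)) : ℂ) else 0 := by
        unfold ch
        exact AddChar.sum_apply_eq_ite _
      rw [← map_sum, h2]
      split_ifs <;> simp
    unfold bt
    rw [sum_comm]
    simp_rw [← sum_mul, h1]
    rw [← sum_filter_add_sum_filter_not univ
      (fun a : A => Additive.ofMul (Abelianization.of a) = 0)]
    have h3 : ∀ a ∈ univ.filter (fun a : A => ¬ Additive.ofMul (Abelianization.of a) = 0),
        (if Additive.ofMul (Abelianization.of a) = 0 then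
          (Fintype.card (Additive (Abelianization A)) : ℂ) else 0) * α (g * a) = 0 := by
      intro a ha
      rw [if_neg (mem_filter.1 ha).2, zero_mul]
    rw [sum_eq_zero h3, add_zero]
    have h4 : ∀ a ∈ univ.filter (fun a : A => Additive.ofMul (Abelianization.of a) = 0),
        (if Additive.ofMul (Abelianization.of a) = 0 then
          (Fintype.card (Additive (Abelianization A)) : ℂ) else 0) * α (g * a) =
          (Fintype.card (Additive (Abelianization A)) : ℂ) * α g := by
      intro a ha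
      have ha' := (mem_filter.1 ha).2
      rw [if_pos ha']
      have h5 : a ∈ commutator A := by
        rw [← Abelianization.ker_of]
        exact ofMul_eq_zero.1 ha'
      have h6 := eq_one_of_mem_commutator hα hab h5
      rw [hα.mul_of_norm_one (by rw [h6]; simp), h6, mul_one]
    rw [sum_congr rfl h4, sum_const, nsmul_eq_mul]
    push_cast
    ring

lemma norm_one_of_top [A.Normal] (hα : IsChr α) {l : AddChar (Additive (Abelianization A)) ℂ}
    (htop : Fx l = ⊤) (hne : bt α 1 l ≠ 0) (b : A) : ‖α b‖ = 1 := by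
  have hn : (Fintype.card G : ℂ) ≠ 0 := Nat.cast_ne_zero.2 Fintype.card_ne_zero
  have h1 : ∀ x : G, ∑ a : A, conj (ch l a) * α (a * (x * b * x⁻¹)) = ch l b * bt α 1 l := by
    intro x
    have hx : x ∈ Fx l := by rw [htop]; trivial
    have h2 : ch l (MulAut.conjNormal x b) = ch l b := hx b
    have h3 : ((MulAut.conjNormal x b : A) : G) = x * b * x⁻¹ := MulAut.conjNormal_apply _ _
    rw [← h3, ← h2]
    unfold bt
    rw [mul_sum, ← Equiv.sum_comp (Equiv.mulRight (MulAut.conjNormal x b)) (fun a : A =>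
      ch l (MulAut.conjNormal x b) * (conj (ch l a) * α (1 * a)))]
    apply sum_congr rfl
    intro a _
    rw [Equiv.coe_mulRight, ch_mul, map_mul, one_mul, Subgroup.coe_mul]
    have h4 := ch_mul_conj l (MulAut.conjNormal x b)
    linear_combination (-(conj (ch l a)) * α (a * ((MulAut.conjNormal x b : A) : G))) * h4
  have h5 : (Fintype.card G : ℂ) * (bt α 1 l * α b) = Fintype.card G * (ch l b * bt α 1 l) := by
    have h6 : (Fintype.card G : ℂ) * (bt α 1 l * α b) =
        ∑ a : A, conj (ch l a) * (Fintype.card G * (α a * α b)) := by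
      unfold bt
      rw [sum_mul, mul_sum]
      apply sum_congr rfl
      intro a _
      rw [one_mul]
      ring
    rw [h6]
    simp_rw [hα.mul, mul_sum]
    rw [sum_comm]
    simp_rw [h1]
    rw [sum_const, card_univ, nsmul_eq_mul]
  have h7 : α b = ch l b := by
    have h8 := mul_left_cancel₀ hn h5
    rw [mul_comm (bt α 1 l)] at h8
    exact mul_right_cancel₀ hne h8
  rw [h7, norm_ch]

end

open Classical in
/-- a normal subgroup, abelian modulo the kernel of `α`, on which `α` is not unimodular -/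
theorem case_abel (hα : IsChr α) {c : G → ℝ} (hc : ∀ g, 0 ≤ c g) (A : Subgroup G) [A.Normal]
    (hab : ∀ x ∈ A, ∀ y ∈ A, α (x * y * x⁻¹ * y⁻¹) = 1) (hne : ∃ x ∈ A, ‖α x‖ ≠ 1) :
    ∃ H : Subgroup G, H ≠ ⊤ ∧ ∑ g with g ∉ H, c g ≤ ∑ g, c g * (1 - ‖α g‖) := by
  obtain ⟨κ, hκ, hsum⟩ := sum_bt (A := A) hα hab
  by_contra hcon
  push Not at hcon
  set B := ∑ g, c g * (1 - ‖α g‖) with hB
  have hμ0 : ∀ l : AddChar (Additive (Abelianization A)) ℂ, 0 ≤ (bt α 1 l).re :=
    fun l => (bt_one_real hα l).2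
  have hμ1 : ∑ l : AddChar (Additive (Abelianization A)) ℂ, (bt α 1 l).re = κ := by
    have h := congrArg Complex.re (hsum 1)
    rw [Complex.re_sum, hα.one, mul_one, Complex.ofReal_re] at h
    exact h
  -- the pointwise bound
  have h1 : ∀ g, ∑ l : AddChar (Additive (Abelianization A)) ℂ,
      (if g ∉ Fx l then (bt α 1 l).re else 0) ≤ κ * (1 - ‖α g‖) := by
    intro g
    have h2 : κ * ‖α g‖ ≤ ∑ l : AddChar (Additive (Abelianization A)) ℂ,
        (if g ∉ Fx l then 0 else (bt α 1 l).re) := by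
      calc κ * ‖α g‖ = ‖∑ l : AddChar (Additive (Abelianization A)) ℂ, bt α g l‖ := by
            rw [hsum g, norm_mul, Complex.norm_real, Real.norm_eq_abs, abs_of_pos hκ]
        _ ≤ ∑ l : AddChar (Additive (Abelianization A)) ℂ, ‖bt α g l‖ := norm_sum_le _ _
        _ ≤ _ := by
            apply sum_le_sum
            intro l _
            by_cases h : g ∈ Fx l
            · rw [if_neg (not_not.2 h)]
              exact bt_norm_le hα h
            · rw [if_pos h, bt_eq_zero hα hab h, norm_zero]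
    have h3 : ∑ l : AddChar (Additive (Abelianization A)) ℂ,
        (if g ∉ Fx l then (bt α 1 l).re else 0) +
        ∑ l : AddChar (Additive (Abelianization A)) ℂ,
        (if g ∉ Fx l then 0 else (bt α 1 l).re) = κ := by
      rw [← sum_add_distrib, ← hμ1]
      apply sum_congr rfl
      intro l _
      split_ifs <;> simp
    linarith
  have h2 : ∑ l : AddChar (Additive (Abelianization A)) ℂ,
      (bt α 1 l).re * ∑ g with g ∉ Fx l, c g ≤ κ * B := by
    calc ∑ l : AddChar (Additive (Abelianization A)) ℂ,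
        (bt α 1 l).re * ∑ g with g ∉ Fx l, c g
        = ∑ g, c g * ∑ l : AddChar (Additive (Abelianization A)) ℂ,
          (if g ∉ Fx l then (bt α 1 l).re else 0) := by
          simp_rw [sum_filter, mul_sum]
          rw [sum_comm]
          apply sum_congr rfl
          intro g _
          apply sum_congr rfl
          intro l _
          split_ifs <;> ring
      _ ≤ ∑ g, c g * (κ * (1 - ‖α g‖)) :=
          sum_le_sum fun g _ => mul_le_mul_of_nonneg_left (h1 g) (hc g)
      _ = κ * B := by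
          rw [hB, mul_sum]
          apply sum_congr rfl
          intro g _
          ring
  -- some character has positive weight
  obtain ⟨l, hl⟩ : ∃ l : AddChar (Additive (Abelianization A)) ℂ, 0 < (bt α 1 l).re := by
    by_contra h
    push Not at h
    have : ∑ l : AddChar (Additive (Abelianization A)) ℂ, (bt α 1 l).re ≤ 0 :=
      sum_nonpos fun l _ => h l
    linarith
  have h4 : ∀ l : AddChar (Additive (Abelianization A)) ℂ, 0 < (bt α 1 l).re →
      B < ∑ g with g ∉ Fx l, c g := by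
    intro l hl
    apply hcon (Fx l)
    intro htop
    obtain ⟨x, hx, hx1⟩ := hne
    apply hx1
    refine norm_one_of_top hα htop ?_ ⟨x, hx⟩
    intro h0
    rw [h0] at hl
    simp at hl
  have h5 : κ * B < ∑ l : AddChar (Additive (Abelianization A)) ℂ,
      (bt α 1 l).re * ∑ g with g ∉ Fx l, c g := by
    rw [← hμ1, sum_mul]
    apply sum_lt_sum
    · intro l _
      rcases (hμ0 l).eq_or_lt with h | h
      · rw [← h]; simp
      · exact mul_le_mul_of_nonneg_left (h4 l h).le h.le
    · exact ⟨l, mem_univ _, mul_lt_mul_of_pos_left (h4 l hl) hl⟩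
  linarith

end Vale.Agent.P318.R2.H356
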