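import Vale.Agent.P318.R2.H356.Avg3

/-!
# The average lemma for alternating groups
-/

open Finset

namespace Vale.Agent.P318.R2.H356

/-- conjugation by an element which normalises `L` -/
def conjL {G : Type*} [Group G] (L : Subgroup G) (g : G) (hg : ∀ x ∈ L, g * x * g⁻¹ ∈ L) :
    L →* L where
  toFun x := ⟨g * x * g⁻¹, hg x x.2⟩
  map_one' := by ext; simp
  map_mul' x y := by ext; simp

lemma conjL_apply {G : Type*} [Group G] (L : Subgroup G) (g : G)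
    (hg : ∀ x ∈ L, g * x * g⁻¹ ∈ L) (x : L) : conjL L g hg x = ⟨g * x * g⁻¹, hg x x.2⟩ := rfl

theorem avg_pt {G : Type*} [Group G] [Finite G] {n : ℕ} (L : Subgroup G)
    (φ : L →* alternatingGroup (Fin n)) (g : G) (hg : ∀ x ∈ L, g * x * g⁻¹ ∈ L)
    (bad : Finset (Fin n))
    (hbad : ∀ p ∈ bad, ∃ (x : G) (hx : x ∈ L), (φ ⟨x, hx⟩ : Equiv.Perm (Fin n)) p = p ∧
      (φ ⟨g * x * g⁻¹, hg x hx⟩ : Equiv.Perm (Fin n)) p ≠ p) :
    ∃ (x : G) (hx : x ∈ L), bad.card ≤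
      2 * (φ (⟨g * x * g⁻¹, hg x hx⟩ * ⟨x, hx⟩⁻¹) : Equiv.Perm (Fin n)).support.card := by
  classical
  have : Fintype L := Fintype.ofFinite L
  obtain ⟨x, hx⟩ := exists_large_support ((alternatingGroup (Fin n)).subtype.comp φ)
    (conjL L g hg)
  refine ⟨x, x.2, le_trans (card_le_card ?_) hx⟩
  intro p hp
  rw [mem_filter]
  refine ⟨mem_univ _, ?_⟩
  obtain ⟨y, hy, h1, h2⟩ := hbad p hp
  exact ⟨⟨y, hy⟩, h1, h2⟩

end Vale.Agent.P318.R2.H356
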