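import Mathlib

/-!
# Normalised irreducible characters as positive definite functions

`IsChr α`: `α` is a class function of the form `g ↦ ⟨ξ, U g ξ⟩`, `‖ξ‖ = 1`, with
`α g * α h = (1/|G|) ∑ x, α (g * (x * h * x⁻¹))`.
-/

open Finset
open scoped ComplexConjugate InnerProductSpace

namespace Vale.Agent.P318.R2.H356

/-- functions on `G × G` -/
abbrev Sp (G : Type*) [Fintype G] := EuclideanSpace ℂ (G × G)

variable {G : Type*} [Group G] [Fintype G]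

/-- right translation in the second variable -/
noncomputable def U (g : G) : Sp G ≃ₗᵢ[ℂ] Sp G :=
  LinearIsometryEquiv.piLpCongrLeft 2 ℂ ℂ
    (Equiv.prodCongr (Equiv.refl G) (Equiv.mulRight g)).symm

lemma U_apply (g : G) (f : Sp G) (p : G × G) : U g f p = f (p.1, p.2 * g) := by
  simp [U, LinearIsometryEquiv.piLpCongrLeft_apply, Prod.map]

lemma U_mul (g h : G) (f : Sp G) : U (g * h) f = U g (U h f) := by
  ext p
  simp [U_apply, mul_assoc]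

lemma U_one (f : Sp G) : U (1 : G) f = f := by
  ext p
  simp [U_apply]

lemma inner_U_left (g : G) (x y : Sp G) : ⟪U g x, y⟫_ℂ = ⟪x, U g⁻¹ y⟫_ℂ := by
  have h : y = U g (U g⁻¹ y) := by rw [← U_mul, mul_inv_cancel, U_one]
  conv_lhs => rw [h]
  exact (U g).inner_map_map x (U g⁻¹ y)

lemma norm_U (g : G) (x : Sp G) : ‖U g x‖ = ‖x‖ := (U g).norm_map x

/-- normalised irreducible characters -/
structure IsChr (α : G → ℂ) : Prop where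
  rep : ∃ ξ : Sp G, ∀ g, α g = ⟪ξ, U g ξ⟫_ℂ
  one : α 1 = 1
  cls : ∀ x g, α (x * g * x⁻¹) = α g
  mul : ∀ g h, (Fintype.card G : ℂ) * (α g * α h) = ∑ x, α (g * (x * h * x⁻¹))

namespace IsChr

variable {α : G → ℂ}

lemma norm_rep {ξ : Sp G} (h1 : α 1 = 1) (hξ : ∀ g, α g = ⟪ξ, U g ξ⟫_ℂ) : ‖ξ‖ = 1 := by
  have h := congrArg Complex.re (hξ 1)
  rw [h1, U_one] at h
  have h2 : ‖ξ‖ ^ 2 = 1 := by
    rw [← inner_self_eq_norm_sq (𝕜 := ℂ)]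
    exact h.symm
  nlinarith [norm_nonneg ξ, sq_nonneg (‖ξ‖ - 1)]

lemma inv (hα : IsChr α) (g : G) : α g⁻¹ = conj (α g) := by
  obtain ⟨ξ, hξ⟩ := hα.rep
  rw [hξ, hξ, inner_conj_symm, inner_U_left]

lemma norm_inv (hα : IsChr α) (g : G) : ‖α g⁻¹‖ = ‖α g‖ := by
  rw [hα.inv]; simp

lemma norm_le (hα : IsChr α) (g : G) : ‖α g‖ ≤ 1 := by
  obtain ⟨ξ, hξ⟩ := hα.rep
  have h1 := norm_rep hα.one hξ
  calc ‖α g‖ = ‖⟪ξ, U g ξ⟫_ℂ‖ := by rw [hξ]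
    _ ≤ ‖ξ‖ * ‖U g ξ‖ := norm_inner_le_norm _ _
    _ = 1 := by rw [norm_U, h1]; norm_num

/-- the three point inequality -/
lemma key (hα : IsChr α) (g h : G) :
    ‖α (g * h) - α g * α h‖ ^ 2 ≤ (1 - ‖α g‖ ^ 2) * (1 - ‖α h‖ ^ 2) := by
  obtain ⟨ξ, hξ⟩ := hα.rep
  have h1 := norm_rep hα.one hξ
  have hself : ⟪ξ, ξ⟫_ℂ = 1 := by
    rw [inner_self_eq_norm_sq_to_K, h1]; norm_num
  have hη : ∀ x : Sp G, ‖x‖ = 1 → ‖x - ⟪ξ, x⟫_ℂ • ξ‖ ^ 2 = 1 - ‖⟪ξ, x⟫_ℂ‖ ^ 2 := by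
    intro x hx
    have h2 : ⟪⟪ξ, x⟫_ℂ • ξ, x - ⟪ξ, x⟫_ℂ • ξ⟫_ℂ = 0 := by
      rw [inner_smul_left, inner_sub_right, inner_smul_right, hself]
      simp
    have h3 := norm_add_sq_eq_norm_sq_add_norm_sq_of_inner_eq_zero _ _ h2
    rw [add_sub_cancel, hx, norm_smul, h1] at h3
    nlinarith
  have hp : ‖U g⁻¹ ξ‖ = 1 := by rw [norm_U, h1]
  have hq : ‖U h ξ‖ = 1 := by rw [norm_U, h1]
  have hpp : ⟪ξ, U g⁻¹ ξ⟫_ℂ = conj (α g) := by rw [← hξ, hα.inv]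
  have hqq : ⟪ξ, U h ξ⟫_ℂ = α h := (hξ h).symm
  have h4 := hη _ hp
  have h5 := hη _ hq
  rw [hpp] at h4
  rw [hqq] at h5
  have h6 : ‖conj (α g)‖ = ‖α g‖ := by simp
  rw [h6] at h4
  rw [← h4, ← h5, ← mul_pow]
  apply pow_le_pow_left₀ (norm_nonneg _)
  have h7 : α (g * h) - α g * α h =
      ⟪U g⁻¹ ξ - conj (α g) • ξ, U h ξ - α h • ξ⟫_ℂ := by
    have h8 : ⟪U g⁻¹ ξ, ξ⟫_ℂ = α g := by
      rw [inner_U_left, inv_inv, ← hξ]
    have h9 : ⟪U g⁻¹ ξ, U h ξ⟫_ℂ = α (g * h) := by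
      rw [inner_U_left, inv_inv, ← U_mul, ← hξ]
    rw [inner_sub_left, inner_sub_right, inner_sub_right, inner_smul_right, inner_smul_left,
      inner_smul_left, inner_smul_right, h8, h9, hqq, hself]
    simp
    ring
  rw [h7]
  exact norm_inner_le_norm _ _

lemma mul_of_norm_one (hα : IsChr α) {z : G} (hz : ‖α z‖ = 1) (g : G) :
    α (g * z) = α g * α z := by
  have h := hα.key g z
  rw [hz] at h
  have h2 : ‖α (g * z) - α g * α z‖ ^ 2 ≤ 0 := by linarith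
  have h3 : ‖α (g * z) - α g * α z‖ = 0 := by
    nlinarith [norm_nonneg (α (g * z) - α g * α z)]
  exact sub_eq_zero.1 (norm_eq_zero.1 h3)

/-- a vanishing commutator -/
lemma le_of_comm (hα : IsChr α) {g n : G} (h0 : α (g * (n * g⁻¹ * n⁻¹)) = 0) :
    ‖α g‖ ≤ 3 / 4 := by
  have h := hα.key g (n * g⁻¹ * n⁻¹)
  rw [h0, hα.cls, hα.norm_inv, zero_sub, norm_neg, norm_mul, hα.norm_inv] at h
  have h1 := norm_nonneg (α g)
  have h2 := hα.norm_le g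
  have h3 : ‖α g‖ * ‖α g‖ ≤ 1 - ‖α g‖ ^ 2 := by
    refine (sq_le_sq₀ (by positivity) (by nlinarith)).1 ?_
    linarith [h]
  nlinarith

end IsChr

end Vale.Agent.P318.R2.H356
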