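import Vale.Agent.P318.R2.H221.Gen
import Vale.Agent.P318.R2.H221.Nonlin4
import Vale.Agent.P318.R2.H221.Psl2
import Vale.Agent.P318.R2.H924.Crude
import Vale.Agent.P318.R2.H924.GapTwo

/-!
# The main theorem for families of simple groups with a uniform character ratio gap
-/

open Finset

set_option linter.unusedSectionVars false

namespace Vale.Agent.P318.R2.H356

open Vale.Agent.P318.H867

lemma glValue_nonneg {V : Type*} [Fintype V] {c : V → V → ℝ} (hc : ∀ i j, 0 ≤ c i j) :
    0 ≤ glValue c := by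
  apply Real.sInf_nonneg
  rintro r ⟨d, ⟨⟨x, hx⟩, -⟩, -, rfl⟩
  have : 0 ≤ ∑ i, ∑ j, c i j * d i j :=
    sum_nonneg fun i _ => sum_nonneg fun j _ => mul_nonneg (hc i j) (by rw [hx]; positivity)
  linarith

/-- The bound for composition factors which are alternating, or in a family `P` with a uniform
gap `κ₀`, or have gap `κ`. -/
theorem main_fam {κ₀ : ℝ} (hκ₀ : 0 < κ₀) {P : (T : Type) → [Group T] → Prop}
    (hP : ∀ (T : Type) [Group T] [Finite T] [IsSimpleGroup T], (∃ a b : T, a * b ≠ b * a) →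
      P T → H678.Gap T κ₀)
    {G : Type} [Group G] [Fintype G] [DecidableEq G] [Nontrivial G] {κ : ℝ} (hκ : 0 < κ)
    (hd : ∀ L : Subgroup G, L.IsSubnormal → ∀ (R : Subgroup L) [R.Normal],
      IsSimpleGroup (L ⧸ R) → (∃ a b : L ⧸ R, a * b ≠ b * a) →
      (∃ n, 5 ≤ n ∧ Nonempty ((L ⧸ R) ≃* alternatingGroup (Fin n))) ∨ P (L ⧸ R) ∨
        H678.Gap (L ⧸ R) κ)
    {c : G → ℝ} (hc : ∀ g, 0 ≤ c g) (hs : ∀ g, c g⁻¹ = c g)
    (hcl : ∀ x g, c (x * g * x⁻¹) = c g) :
    phi (fun x y : G => c (x⁻¹ * y)) ≤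
      (1299276296 + 128 / κ₀ + 128 / κ + 1100 * (1 + Real.log (1 + min
        (Nat.card {z : Abelianization G // z ≠ 1 ∧ ∃ g, Abelianization.of g = z ∧ c g ≠ 0} : ℝ)
        (min (Monoid.exponent (Abelianization G) : ℝ)
          (Real.log (Nat.card (Abelianization G))))))) *
        glValue (fun x y : G => c (x⁻¹ * y)) := by
  set κ' := min κ₀ κ with hκ'
  have hk : 0 < κ' := lt_min hκ₀ hκ
  have h := H221.main_gen hc hs hcl (K := 649638148 + 64 / κ') (by positivity)
    (fun α hα h1 => H221.nonlin4 hk (fun L hL R _ h2 h3 => by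
      rcases hd L hL R h2 h3 with h4 | h4 | h4
      · exact Or.inl h4
      · exact Or.inr (H924.Gap.mono (hP (L ⧸ R) h3 h4) (min_le_left _ _))
      · exact Or.inr (H924.Gap.mono h4 (min_le_right _ _))) hα h1 hc)
  refine h.trans (mul_le_mul_of_nonneg_right ?_ (glValue_nonneg fun x y => hc _))
  have h5 : 64 / κ' ≤ 64 / κ₀ + 64 / κ := by
    rcases min_choice κ₀ κ with h6 | h6
    · rw [hκ', h6]
      have : 0 < 64 / κ := by positivity
      linarith
    · rw [hκ', h6]
      have : 0 < 64 / κ₀ := by positivity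
      linarith
  have h7 : 2 * (649638148 + 64 / κ') ≤ 1299276296 + 128 / κ₀ + 128 / κ := by
    have h8 : 128 / κ₀ = 2 * (64 / κ₀) := by ring
    have h9 : 128 / κ = 2 * (64 / κ) := by ring
    rw [h8, h9]
    linarith
  linarith

end Vale.Agent.P318.R2.H356
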