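import Vale.Agent.P318.R2.H221.Psl2
import Vale.Agent.P318.R2.H924.Crude
import Vale.Agent.P318.R2.H924.GapTwo

/-!
# The character ratio gap of `PSL(2, F)`
-/

open Finset

namespace Vale.Agent.P318.R2.H356

lemma exists_pow_four {F : Type*} [Field F] [Finite F] (h : 5 < Nat.card F) :
    ∃ a : F, a ≠ 0 ∧ a ^ 4 ≠ 1 := by
  classical
  have : Fintype F := Fintype.ofFinite F
  have h1 : (univ.filter fun x : Fˣ => x ^ 4 = 1).card ≤ 4 :=
    IsCyclic.card_pow_eq_one_le (by norm_num)
  have h2 : Fintype.card Fˣ = Fintype.card F - 1 := Fintype.card_units F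
  rw [Nat.card_eq_fintype_card] at h
  by_contra hcon
  push Not at hcon
  have h3 : (univ.filter fun x : Fˣ => x ^ 4 = 1) = univ := by
    apply filter_true_of_mem
    intro x _
    apply Units.ext
    rw [Units.val_pow_eq_pow_val, Units.val_one]
    exact hcon x x.ne_zero
  rw [h3, card_univ, h2] at h1
  omega

theorem gap_psl_two (F : Type*) [Field F] [Finite F]
    [IsSimpleGroup (Matrix.ProjectiveSpecialLinearGroup (Fin 2) F)] :
    H678.Gap (Matrix.ProjectiveSpecialLinearGroup (Fin 2) F) (1 / 625 ^ 2) := by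
  by_cases h : Nat.card F ≤ 5
  · exact H924.gap_psl_two_small h
  · push Not at h
    obtain ⟨a, ha, ha4⟩ := exists_pow_four h
    have : Finite (Matrix.SpecialLinearGroup (Fin 2) F) := Finite.of_injective
      (fun g => (g : Matrix (Fin 2) (Fin 2) F)) Subtype.val_injective
    have h1 := H924.gap_of_two (by norm_num) (H221.two_psl2 ha ha4)
    refine H924.Gap.mono h1 ?_
    norm_num

end Vale.Agent.P318.R2.H356
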