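import Vale.Agent.P318.R2.H356.Fam
import Vale.Agent.P318.R2.H356.FamPsl2
import Vale.Agent.P318.R2.H378.SlGap
import Vale.Agent.P318.R2.H678.SympGap
import Vale.Agent.P318.R2.H924.Om.Gap
import Vale.Agent.P318.R2.H969.PsuGap

/-!
# The character ratio gaps of the simple classical groups
-/

namespace Vale.Agent.P318.R2.H356

open Module

lemma simple_congr {T S : Type*} [Group T] [Group S] [IsSimpleGroup T] (e : T ≃* S) :
    IsSimpleGroup S := e.symm.isSimpleGroup

/-- projective special linear groups -/
theorem gap_psl_all {n : ℕ} (hn : 2 ≤ n) {F : Type} [Field F] [Finite F] {T : Type} [Group T]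
    [IsSimpleGroup T] (e : T ≃* Matrix.ProjectiveSpecialLinearGroup (Fin n) F) :
    H678.Gap T (1 / 625 ^ 2) := by
  have hs := simple_congr e
  rcases Nat.lt_or_ge 2 n with h | h
  · refine H924.Gap.congr (H924.Gap.mono (H378.gap_psl (n := Fin n) (F := F) ?_) ?_) e
    · rw [Fintype.card_fin]; exact h
    · norm_num
  · have h2 : n = 2 := le_antisymm h hn
    subst h2
    exact H924.Gap.congr (gap_psl_two F) e

/-- projective symplectic groups -/
theorem gap_psp_all {n : ℕ} (hn : 2 ≤ n) {F : Type} [Field F] [Finite F] {T : Type} [Group T]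
    [IsSimpleGroup T] (e : T ≃* Matrix.symplecticGroup (Fin n) F ⧸
      Subgroup.center (Matrix.symplecticGroup (Fin n) F)) :
    H678.Gap T (1 / 65536 ^ 2) := by
  have hs := simple_congr e
  exact H924.Gap.congr (H678.gap_psp hn F) e

open Vale.Agent.P180.R2.H589.Un in
/-- projective special unitary groups -/
theorem gap_psu_all {K V : Type} [Field K] [Finite K] [AddCommGroup V] [Module K V]
    [FiniteDimensional K V] (hd : 3 ≤ finrank K V) {s : K ≃+* K} (hs : ∀ a, s (s a) = a)
    (hne : ∃ a, s a ≠ a) {h : V → V → K} (h1 : ∀ x y z, h (x + y) z = h x z + h y z)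
    (h2 : ∀ (a : K) x y, h (a • x) y = a * h x y) (h3 : ∀ x y, h y x = s (h x y))
    (h4 : ∀ x, (∀ y, h x y = 0) → x = 0) {S : Subgroup (V ≃ₗ[K] V)}
    (hS : ∀ g, g ∈ S ↔ (∀ x y, h (g x) (g y) = h x y) ∧ LinearEquiv.det g = 1)
    {T : Type} [Group T] [Finite T] [IsSimpleGroup T] (e : T ≃* S ⧸ Subgroup.center S) :
    H678.Gap T (1 / 262144 ^ 2) := by
  classical
  have hθ : Iv s := ⟨hs, hne⟩
  have hB : Hm s h := ⟨h1, h2, h3, h4⟩
  have hSS : S = SUG h := by
    ext g
    rw [hS, mem_SUG]
    rfl
  by_cases hq : 2 < Nat.card (FF s) ∨ 4 ≤ finrank K V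
  · subst hSS
    exact H924.Gap.mono (H969.gap_of_isPSU ⟨K, V, inferInstance, inferInstance, inferInstance,
      inferInstance, inferInstance, s, h, hθ, hB, hd, hq, ⟨e⟩⟩) (by norm_num)
  · push Not at hq
    have h5 : finrank K V = 3 := by omega
    have h6 : Nat.card K ≤ 4 := by
      rw [card_sq hθ]
      calc Nat.card (FF s) ^ 2 ≤ 2 ^ 2 := Nat.pow_le_pow_left hq.1 2
        _ = 4 := by norm_num
    have b := finBasisOfFinrankEq K V h5
    have hV : Nat.card V ≤ 64 := by
      have h7 : Nat.card V = Nat.card (Fin 3 → K) := Nat.card_congr b.equivFun.toEquiv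
      rw [h7, Nat.card_fun, Nat.card_eq_fintype_card (α := Fin 3), Fintype.card_fin]
      calc Nat.card K ^ 3 ≤ 4 ^ 3 := Nat.pow_le_pow_left h6 3
        _ = 64 := by norm_num
    have hfV : Finite V := Module.finite_of_finite K
    have h8 : Nat.card S ≤ 262144 := by
      have h9 : Nat.card S ≤ Nat.card (Fin 3 → V) :=
        Nat.card_le_card_of_injective (fun g => fun i => (g : V ≃ₗ[K] V) (b i)) (by
          intro g g' hgg
          apply Subtype.ext
          apply LinearEquiv.toLinearMap_injective
          exact b.ext fun i => congrFun hgg i)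
      refine h9.trans ?_
      rw [Nat.card_fun, Nat.card_eq_fintype_card (α := Fin 3), Fintype.card_fin]
      calc Nat.card V ^ 3 ≤ 64 ^ 3 := Nat.pow_le_pow_left hV 3
        _ = 262144 := by norm_num
    have hfS : Finite S := Finite.of_injective (fun g => fun i => (g : V ≃ₗ[K] V) (b i)) (by
      intro g g' hgg
      apply Subtype.ext
      apply LinearEquiv.toLinearMap_injective
      exact b.ext fun i => congrFun hgg i)
    have h10 : Nat.card T ≤ 262144 := by
      rw [Nat.card_congr e.toEquiv]
      exact (Nat.card_le_card_of_surjective _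
        (QuotientGroup.mk'_surjective (Subgroup.center S))).trans h8
    have h11 := H924.gap_crude_le h10
    norm_num at h11 ⊢
    exact h11

end Vale.Agent.P318.R2.H356
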