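import Vale.Agent.P318.R2.H356.Fam
import Vale.Agent.P318.R2.H867.RatMain
import Vale.Agent.P318.R2.H924.Nonlin

/-!
# Rational class weights: spectral bounds
-/

open Finset

set_option linter.unusedSectionVars false

namespace Vale.Agent.P318.R2.H356

open Vale.Agent.P318.H867

/-- the spectral inequality with constant `B`, and the bound by the relaxation -/
def Spec {G : Type} [Group G] [Fintype G] [DecidableEq G] (c : G → ℝ) (B : ℝ) : Prop :=
  (∀ u : G → ℝ, phi (fun x y : G => c (x⁻¹ * y)) * ∑ x, ∑ y, (u x - u y) ^ 2 ≤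
    B * ∑ x, ∑ y, c (x⁻¹ * y) * (u x - u y) ^ 2) ∧
  phi (fun x y : G => c (x⁻¹ * y)) ≤ B * glValue (fun x y : G => c (x⁻¹ * y))

lemma Spec.mono {G : Type} [Group G] [Fintype G] [DecidableEq G] {c : G → ℝ}
    (hc : ∀ g, 0 ≤ c g) {B B' : ℝ} (h : Spec c B) (hB : B ≤ B') : Spec c B' := by
  refine ⟨fun u => (h.1 u).trans (mul_le_mul_of_nonneg_right hB ?_),
    h.2.trans (mul_le_mul_of_nonneg_right hB (glValue_nonneg fun x y => hc _))⟩
  exact sum_nonneg fun x _ => sum_nonneg fun y _ => mul_nonneg (hc _) (sq_nonneg _)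

open Classical in
lemma spec_of {G : Type} [Group G] [Fintype G] [DecidableEq G] [Nontrivial G] {c : G → ℝ}
    (hc : ∀ g, 0 ≤ c g) (hs : ∀ g, c g⁻¹ = c g) (hcl : ∀ x g, c (x * g * x⁻¹) = c g)
    (hr : ∀ g h, Subgroup.zpowers g = Subgroup.zpowers h → c g = c h) {K : ℝ} (hK : 1 ≤ K)
    (hnl : ∀ α : G → ℂ, IsChr α → (∃ g, ‖α g‖ ≠ 1) →
      ∃ H : Subgroup G, H ≠ ⊤ ∧ ∑ g with g ∉ H, c g ≤ K * ∑ g, c g * (1 - (α g).re)) :
    Spec c (2 * K) := by
  have key := H867.spectral_rat hc hs hcl (H867.rat_pow hr) hK hnl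
  exact ⟨key, H867.gl_of_spectral_gen (by linarith) key⟩

open Classical in
theorem spec_solvable {G : Type} [Group G] [Fintype G] [DecidableEq G] [Nontrivial G]
    (hG : Group.IsSolvable G) {c : G → ℝ}
    (hc : ∀ g, 0 ≤ c g) (hs : ∀ g, c g⁻¹ = c g) (hcl : ∀ x g, c (x * g * x⁻¹) = c g)
    (hr : ∀ g h, Subgroup.zpowers g = Subgroup.zpowers h → c g = c h) : Spec c 8 := by
  have h := spec_of hc hs hcl hr (K := 4) (by norm_num)
    (fun α hα h1 => H924.nonlin hα h1 hc)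
  norm_num at h
  exact h

open Classical in
theorem gl_solvable {G : Type} [Group G] [Fintype G] [DecidableEq G] [Nontrivial G]
    (hG : Group.IsSolvable G) {c : G → ℝ}
    (hc : ∀ g, 0 ≤ c g) (hs : ∀ g, c g⁻¹ = c g) (hcl : ∀ x g, c (x * g * x⁻¹) = c g) :
    phi (fun x y : G => c (x⁻¹ * y)) ≤
      (8 + 1100 * (1 + Real.log (1 + min
        (Nat.card {z : Abelianization G // z ≠ 1 ∧ ∃ g, Abelianization.of g = z ∧ c g ≠ 0} : ℝ)
        (min (Monoid.exponent (Abelianization G) : ℝ)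
          (Real.log (Nat.card (Abelianization G))))))) *
        glValue (fun x y : G => c (x⁻¹ * y)) := by
  have h := H221.main_gen hc hs hcl (K := 4) (by norm_num)
    (fun α hα h1 => H924.nonlin hα h1 hc)
  norm_num at h ⊢
  exact h

open Classical in
theorem spec_fam {κ₀ : ℝ} (hκ₀ : 0 < κ₀) {P : (T : Type) → [Group T] → Prop}
    (hP : ∀ (T : Type) [Group T] [Finite T] [IsSimpleGroup T], (∃ a b : T, a * b ≠ b * a) →
      P T → H678.Gap T κ₀)
    {G : Type} [Group G] [Fintype G] [DecidableEq G] [Nontrivial G] {κ : ℝ} (hκ : 0 < κ)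
    (hd : ∀ L : Subgroup G, L.IsSubnormal → ∀ (R : Subgroup L) [R.Normal],
      IsSimpleGroup (L ⧸ R) → (∃ a b : L ⧸ R, a * b ≠ b * a) →
      (∃ n, 5 ≤ n ∧ Nonempty ((L ⧸ R) ≃* alternatingGroup (Fin n))) ∨ P (L ⧸ R) ∨
        H678.Gap (L ⧸ R) κ)
    {c : G → ℝ} (hc : ∀ g, 0 ≤ c g) (hs : ∀ g, c g⁻¹ = c g)
    (hcl : ∀ x g, c (x * g * x⁻¹) = c g)
    (hr : ∀ g h, Subgroup.zpowers g = Subgroup.zpowers h → c g = c h) :
    Spec c (1299276296 + 128 / κ₀ + 128 / κ) := by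
  set κ' := min κ₀ κ with hκ'
  have hk : 0 < κ' := lt_min hκ₀ hκ
  have h64 : 0 < 64 / κ' := by positivity
  have h := spec_of hc hs hcl hr (K := 649638148 + 64 / κ') (by linarith)
    (fun α hα h1 => H221.nonlin4 hk (fun L hL R _ h2 h3 => by
      rcases hd L hL R h2 h3 with h4 | h4 | h4
      · exact Or.inl h4
      · exact Or.inr (H924.Gap.mono (hP (L ⧸ R) h3 h4) (min_le_left _ _))
      · exact Or.inr (H924.Gap.mono h4 (min_le_right _ _))) hα h1 hc)
  refine h.mono hc ?_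
  have h5 : 64 / κ' ≤ 64 / κ₀ + 64 / κ := by
    rcases min_choice κ₀ κ with h6 | h6
    · rw [hκ', h6]
      have : 0 < 64 / κ := by positivity
      linarith
    · rw [hκ', h6]
      have : 0 < 64 / κ₀ := by positivity
      linarith
  have h8 : 128 / κ₀ = 2 * (64 / κ₀) := by ring
  have h9 : 128 / κ = 2 * (64 / κ) := by ring
  rw [h8, h9]
  linarith

end Vale.Agent.P318.R2.H356
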