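import Vale.Agent.P318.R2.H924.TwoOf
import Vale.Agent.P318.R2.H402.TwoDef
import Vale.Agent.P318.R2.H678.GapDef

/-!
# Several subgroups which generate: a gap of the character ratios
-/

namespace Vale.Agent.P318.R2.H356

open Matrix Finset Vale.Agent.P318.R2.H924

/-- the codimension of an intersection -/
lemma codim_inf {V ι : Type*} [AddCommGroup V] [Module ℂ V] [FiniteDimensional ℂ V]
    (s : Finset ι) (W : ι → Submodule ℂ V) :
    (Module.finrank ℂ V : ℝ) - Module.finrank ℂ (⨅ i ∈ s, W i : Submodule ℂ V) ≤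
      ∑ i ∈ s, ((Module.finrank ℂ V : ℝ) - Module.finrank ℂ (W i)) := by
  classical
  induction s using Finset.induction_on with
  | empty =>
    have h0 : (⨅ i ∈ (∅ : Finset ι), W i) = ⊤ := by simp
    rw [h0, finrank_top]
    simp
  | insert a s ha ih =>
    rw [Finset.sum_insert ha, Finset.iInf_insert]
    have h1 := Submodule.finrank_sup_add_finrank_inf_eq (W a) (⨅ i ∈ s, W i)
    have h2 : Module.finrank ℂ (W a ⊔ ⨅ i ∈ s, W i : Submodule ℂ V) ≤ Module.finrank ℂ V :=
      Submodule.finrank_le _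
    have h3 : (Module.finrank ℂ (W a ⊔ ⨅ i ∈ s, W i : Submodule ℂ V) : ℝ) +
        Module.finrank ℂ (W a ⊓ ⨅ i ∈ s, W i : Submodule ℂ V) =
        Module.finrank ℂ (W a) + Module.finrank ℂ (⨅ i ∈ s, W i : Submodule ℂ V) := by
      exact_mod_cast h1
    have h4 : (Module.finrank ℂ (W a ⊔ ⨅ i ∈ s, W i : Submodule ℂ V) : ℝ) ≤
      Module.finrank ℂ V := by exact_mod_cast h2
    linarith

/-- `k` subgroups which generate, all of whose elements are products of at most `m` conjugates of
each `x` other than `1` and of its inverse. -/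
theorem gap_of_family {T : Type*} [Group T] [Finite T] {k m : ℕ} (hm : 0 < m)
    (A : Fin k → Subgroup T) (hA : ⨆ i, A i = ⊤)
    (h : ∀ x : T, x ≠ 1 → ∀ i, ∀ y ∈ A i, R2.H402.Pr m x y) :
    R2.H678.Gap T (1 / (k * (m : ℝ) ^ 2)) := by
  classical
  cases nonempty_fintype T
  intro d ρ hρ x hx
  have hk : 0 < k := by
    rcases Nat.eq_zero_or_pos k with h0 | h0
    · subst h0
      exfalso
      apply hx
      have h1 : (⨆ i, A i) = ⊥ := by simp
      rw [h1] at hA
      have h2 : x ∈ (⊤ : Subgroup T) := Subgroup.mem_top x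
      rw [← hA, Subgroup.mem_bot] at h2
      exact h2
    · exact h0
  obtain ⟨f, h0, h2, hmul, hi, hc⟩ := exists_len ρ
  have h1 : f 1 = 0 := by
    have h3 := h2 1
    rw [map_one, trace_one, Fintype.card_fin, Complex.natCast_re] at h3
    have h4 : f 1 ^ 2 = 0 := by rw [h3]; ring
    exact pow_eq_zero_iff (two_ne_zero) |>.1 h4
  have key : ∀ i, 2 * ((d : ℝ) - Module.finrank ℂ (fixed ρ (A i))) ≤ (m : ℝ) ^ 2 * f x ^ 2 := by
    intro i
    have hA' : ∀ y ∈ A i, f y ≤ m * f x := by
      intro y hy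
      obtain ⟨w, hw, hwc, hwp⟩ := h x hx i y hy
      rw [← hwp]
      exact len_word h0 h1 hmul hi hc w hw hwc
    have hcard : (0 : ℝ) < Fintype.card (A i) := by exact_mod_cast Fintype.card_pos
    have h3 : ∑ a : A i, f a ^ 2 ≤ (Fintype.card (A i) : ℝ) * ((m : ℝ) ^ 2 * f x ^ 2) := by
      calc ∑ a : A i, f a ^ 2 ≤ ∑ _a : A i, (m : ℝ) ^ 2 * f x ^ 2 := by
            refine sum_le_sum fun a _ => ?_
            rw [← mul_pow]
            exact pow_le_pow_left₀ (h0 a) (hA' a a.2) 2
        _ = _ := by rw [sum_const, card_univ, nsmul_eq_mul]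
    have h4 : ∑ a : A i, f a ^ 2 = (Fintype.card (A i) : ℝ) *
        (2 * ((d : ℝ) - Module.finrank ℂ (fixed ρ (A i)))) := by
      have h5 := congrArg Complex.re (sum_trace ρ (A i))
      rw [Complex.re_sum, ← Nat.cast_mul, Complex.natCast_re, Nat.cast_mul] at h5
      have h7 : ∑ a : A i, 2 * (trace (ρ a)).re = 2 * ∑ a : A i, (trace (ρ a)).re :=
        (mul_sum _ _ _).symm
      rw [sum_congr rfl fun (a : A i) _ => h2 a, sum_sub_distrib, h7, h5, sum_const,
        card_univ, nsmul_eq_mul]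
      ring
    rw [h4] at h3
    exact le_of_mul_le_mul_left h3 hcard
  -- the fixed spaces meet trivially
  have hinf : (⨅ i ∈ (univ : Finset (Fin k)), fixed ρ (A i)) = ⊥ := by
    rw [eq_bot_iff]
    intro v hv
    rw [Submodule.mem_bot]
    apply hρ v
    simp only [Finset.mem_univ, iInf_pos, Submodule.mem_iInf] at hv
    intro z
    have h6 : (⊤ : Subgroup T) ≤ {
        carrier := {x | (ρ x).mulVec v = v}
        mul_mem' := by
          intro a b ha hb
          change (ρ (a * b)).mulVec v = v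
          rw [map_mul, ← mulVec_mulVec, hb, ha]
        one_mem' := by
          change (ρ 1).mulVec v = v
          rw [map_one, one_mulVec]
        inv_mem' := by
          intro a ha
          change (ρ a⁻¹).mulVec v = v
          have h1 : (ρ a⁻¹).mulVec ((ρ a).mulVec v) = v := by
            rw [mulVec_mulVec, ← map_mul, inv_mul_cancel, map_one, one_mulVec]
          rwa [ha] at h1 : Subgroup T } := by
      rw [← hA]
      exact iSup_le fun i a ha => hv i a ha
    exact h6 (Subgroup.mem_top z)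
  have h8 := codim_inf (univ : Finset (Fin k)) (fun i => fixed ρ (A i))
  rw [hinf, finrank_bot, Module.finrank_fin_fun] at h8
  have hmp : (0 : ℝ) < (m : ℝ) ^ 2 := by positivity
  have hkp : (0 : ℝ) < (k : ℝ) := by exact_mod_cast hk
  have h9 : (d : ℝ) ≤ k * ((m : ℝ) ^ 2 * f x ^ 2 / 2) := by
    calc (d : ℝ) = (d : ℝ) - (0 : ℕ) := by simp
      _ ≤ ∑ i : Fin k, ((d : ℝ) - Module.finrank ℂ (fixed ρ (A i))) := h8
      _ ≤ ∑ _i : Fin k, ((m : ℝ) ^ 2 * f x ^ 2 / 2) :=
          sum_le_sum fun i _ => by linarith [key i]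
      _ = _ := by rw [sum_const, card_univ, Fintype.card_fin, nsmul_eq_mul]
  rw [h2] at h9
  have h10 : (d : ℝ) ≤ k * (m : ℝ) ^ 2 * (d - (trace (ρ x)).re) := by
    calc (d : ℝ) ≤ k * ((m : ℝ) ^ 2 * (2 * d - 2 * (trace (ρ x)).re) / 2) := h9
      _ = _ := by ring
  have h11 : (d : ℝ) / (k * (m : ℝ) ^ 2) ≤ d - (trace (ρ x)).re := by
    rw [div_le_iff₀ (by positivity)]
    linarith
  have h12 : (1 - 1 / (k * (m : ℝ) ^ 2)) * (d : ℝ) = d - d / (k * (m : ℝ) ^ 2) := by ring
  rw [h12]
  linarith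

end Vale.Agent.P318.R2.H356
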