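import Vale.Agent.P318.R2.H356.Sd

/-!
# The simple quotient and the length argument
-/

open Finset

set_option linter.unusedSectionVars false

namespace Vale.Agent.P318.R2.H356

/-- `L / Z0` is simple if `Z0` is maximal among the subgroups of `L` normalised by `L` -/
lemma simple_quot {G : Type*} [Group G] (Z0 L : Subgroup G) (hLZ : ¬ L ≤ Z0) (hZL : Z0 ≤ L)
    [hn : (Z0.subgroupOf L).Normal]
    (hmax : ∀ R : Subgroup G, Z0 ≤ R → R ≤ L → (∀ x ∈ L, ∀ r ∈ R, x * r * x⁻¹ ∈ R) →
      R = Z0 ∨ R = L) : IsSimpleGroup (L ⧸ Z0.subgroupOf L) := by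
  have hnt : Nontrivial (L ⧸ Z0.subgroupOf L) := by
    rw [QuotientGroup.nontrivial_iff]
    intro h
    apply hLZ
    exact Subgroup.subgroupOf_eq_top.1 h
  refine ⟨fun H hH => ?_⟩
  set q := QuotientGroup.mk' (Z0.subgroupOf L) with hq
  have hqs : Function.Surjective q := QuotientGroup.mk'_surjective _
  set R : Subgroup G := (H.comap q).map L.subtype with hR
  have hmem : ∀ x : L, (x : G) ∈ R ↔ q x ∈ H := by
    intro x
    constructor
    · rintro ⟨y, hy, hxy⟩
      have : y = x := Subtype.ext hxy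
      rw [← this]; exact hy
    · intro hx
      exact ⟨x, hx, rfl⟩
  have h1 : Z0 ≤ R := by
    intro z hz
    have h2 := (hmem ⟨z, hZL hz⟩).2
    apply h2
    have h3 : q ⟨z, hZL hz⟩ = 1 := by
      rw [hq, QuotientGroup.mk'_apply, QuotientGroup.eq_one_iff]
      exact hz
    rw [h3]; exact H.one_mem
  have h2 : R ≤ L := by
    rintro x ⟨y, -, rfl⟩
    exact y.2
  have h3 : ∀ x ∈ L, ∀ r ∈ R, x * r * x⁻¹ ∈ R := by
    rintro x hx r ⟨y, hy, rfl⟩
    have h4 := (hmem (⟨x, hx⟩ * y * ⟨x, hx⟩⁻¹)).2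
    apply h4
    rw [map_mul, map_mul, map_inv]
    exact hH.conj_mem _ hy _
  rcases hmax R h1 h2 h3 with h | h
  · left
    rw [eq_bot_iff]
    intro t ht
    obtain ⟨x, rfl⟩ := hqs t
    have h5 := (hmem x).2 ht
    rw [h] at h5
    rw [Subgroup.mem_bot, hq, QuotientGroup.mk'_apply, QuotientGroup.eq_one_iff]
    exact h5
  · right
    rw [eq_top_iff]
    intro t _
    obtain ⟨x, rfl⟩ := hqs t
    apply (hmem x).1
    rw [h]; exact x.2

/-- the length argument -/
lemma le_of_list {T : Type*} [Group T] {f : T → ℝ} (h1 : f 1 = 0)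
    (hm : ∀ x y, f (x * y) ≤ f x + f y) (hi : ∀ x, f x⁻¹ = f x)
    (hcj : ∀ x y, f (x * y * x⁻¹) = f y) {x : T} (w : List T)
    (hw : ∀ u ∈ w, IsConj x u ∨ IsConj x⁻¹ u) : f w.prod ≤ w.length * f x := by
  induction w with
  | nil => simp [h1]
  | cons a w ih =>
    rw [List.prod_cons, List.length_cons]
    have h2 := ih fun u hu => hw u (List.mem_cons_of_mem _ hu)
    have h3 : f a = f x := by
      rcases hw a List.mem_cons_self with h | h
      · obtain ⟨z, hz⟩ := isConj_iff.1 h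
        rw [← hz, hcj]
      · obtain ⟨z, hz⟩ := isConj_iff.1 h
        rw [← hz, hcj, hi]
    have h4 := hm a w.prod
    push_cast
    linarith

end Vale.Agent.P318.R2.H356
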