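import Vale.Agent.P318.R2.H924.Om.Stmts

/-!
# Isometries which fix every singular line
-/

set_option autoImplicit false

namespace Vale.Agent.P318.R2.H356

open Vale.Agent.P318.R2.H924.Om

variable {K V : Type*} [Field K] [AddCommGroup V] [Module K V] {Q : QuadraticForm K V}

lemma Q_sub_smul (z a : V) (q : K) : Q (z - q • a) = Q z - q * pl Q z a + q * q * Q a := by
  rw [sub_eq_add_neg, ← neg_smul, Q_add, Q_smul, map_smul, smul_eq_mul]
  ring

/-- orthogonal singular vectors have the same eigenvalue -/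
lemma eig_orth {g : V ≃ₗ[K] V} (hg : ∀ e, Q e = 0 → g e ∈ Submodule.span K {e}) {a b : V}
    (ha : Q a = 0) (hb : Q b = 0) (hab : pl Q a b = 0) (ha0 : a ≠ 0) {l : K}
    (hl : g a = l • a) : g b = l • b := by
  by_cases hba : b ∈ Submodule.span K {a}
  · obtain ⟨k, rfl⟩ := Submodule.mem_span_singleton.1 hba
    rw [map_smul, hl, smul_comm]
  · obtain ⟨c, hc⟩ := Submodule.mem_span_singleton.1 (hg b hb)
    have h1 : Q (a + b) = 0 := by rw [Q_add, ha, hb, hab]; ring
    obtain ⟨m, hm⟩ := Submodule.mem_span_singleton.1 (hg (a + b) h1)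
    rw [map_add, hl, ← hc, smul_add] at hm
    -- m a + m b = l a + c b
    have h2 : (m - c) • b = (l - m) • a := by
      have h3 : m • b - c • b = l • a - m • a := by
        have h4 : m • b = l • a + c • b - m • a := by rw [← hm]; abel
        rw [h4]; abel
      rw [sub_smul, sub_smul, h3]
    have h5 : m = c := by
      by_contra hne
      apply hba
      have h6 : m - c ≠ 0 := sub_ne_zero.2 hne
      rw [Submodule.mem_span_singleton]
      refine ⟨(m - c)⁻¹ * (l - m), ?_⟩
      rw [mul_smul, ← h2, smul_smul, inv_mul_cancel₀ h6, one_smul]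
    rw [h5, sub_self, zero_smul] at h2
    have h7 : l = c := by
      rcases smul_eq_zero.1 h2.symm with h8 | h8
      · exact sub_eq_zero.1 h8
      · exact absurd h8 ha0
    rw [← hc, h7]

lemma exists_both {φ ψ : V →ₗ[K] K} (h1 : φ ≠ 0) (h2 : ψ ≠ 0) : ∃ z, φ z ≠ 0 ∧ ψ z ≠ 0 := by
  obtain ⟨x, hx⟩ : ∃ x, φ x ≠ 0 := by
    by_contra h
    push Not at h
    exact h1 (LinearMap.ext h)
  obtain ⟨y, hy⟩ : ∃ y, ψ y ≠ 0 := by
    by_contra h
    push Not at h
    exact h2 (LinearMap.ext h)
  by_cases h3 : ψ x = 0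
  · by_cases h4 : φ y = 0
    · refine ⟨x + y, ?_, ?_⟩
      · rw [map_add, h4, add_zero]; exact hx
      · rw [map_add, h3, zero_add]; exact hy
    · exact ⟨y, h4, hy⟩
  · exact ⟨x, hx, h3⟩

theorem sca (K V : Type*) [Field K] [AddCommGroup V] [Module K V] : StSca K V := by
  intro Q _ hnd hP g _
  by_cases hex : ∃ e, Q e = 0 ∧ g e ∉ Submodule.span K {e}
  · exact Or.inr hex
  left
  push Not at hex
  -- a nonzero singular vector
  obtain ⟨a, ha, -, -, ha0⟩ := hP 0 0 (by rw [map_zero]) (by rw [map_zero]) (by rw [map_zero])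
  have ha1 : a ≠ 0 := by
    intro h
    apply ha0
    rw [h]
    exact Submodule.zero_mem _
  obtain ⟨l, hl⟩ := Submodule.mem_span_singleton.1 (hex a ha)
  have hl : g a = l • a := hl.symm
  -- all singular vectors
  have hsing : ∀ e, Q e = 0 → g e = l • e := by
    intro e he
    by_cases hae : pl Q a e = 0
    · exact eig_orth hex ha he hae ha1 hl
    · obtain ⟨t, ht, hat, -, hts⟩ := hP a a ha ha (pl_self_of Q ha)
      have htc : pl Q t a = 0 := by rw [pl_comm, hat]
      set k := pl Q t e / pl Q a e with hk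
      have h1 : Q (t - k • a) = 0 := by
        rw [Q_sub_smul, ht, ha, htc]
        ring
      have h2 : pl Q a (t - k • a) = 0 := by
        rw [map_sub, map_smul, hat, pl_self_of Q ha]
        simp
      have h3 : pl Q (t - k • a) e = 0 := by
        rw [map_sub, map_smul, LinearMap.sub_apply, LinearMap.smul_apply, smul_eq_mul, hk,
          div_mul_cancel₀ _ hae, sub_self]
      have h4 : t - k • a ≠ 0 := by
        intro h
        apply hts
        rw [sub_eq_zero.1 h]
        exact Submodule.smul_mem _ _ (Submodule.subset_span (by simp))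
      exact eig_orth hex h1 he h3 h4 (eig_orth hex ha h1 h2 ha1 hl)
  -- all vectors
  have hkey : ∀ v z, Q z = 0 → pl Q v z ≠ 0 → g v = l • v := by
    intro v z hz hvz
    set k := Q v / pl Q v z with hk
    have h1 : Q (v - k • z) = 0 := by
      rw [Q_sub_smul, hz, hk, div_mul_cancel₀ _ hvz]
      ring
    have h2 : v = (v - k • z) + k • z := by abel
    have h3 := hsing _ h1
    have h4 := hsing _ hz
    calc g v = g (v - k • z) + k • g z := by rw [← map_smul, ← map_add, ← h2]
      _ = l • v := by rw [h3, h4, smul_sub, smul_comm k l z, sub_add_cancel]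
  have hall : ∀ v, g v = l • v := by
    intro v
    by_cases hv : v = 0
    · rw [hv, map_zero, smul_zero]
    by_cases hva : pl Q v a = 0
    · have h1 : (pl Q v : V →ₗ[K] K) ≠ 0 := by
        intro h
        apply hv
        apply hnd
        intro y
        rw [h]; rfl
      have h2 : (pl Q a : V →ₗ[K] K) ≠ 0 := by
        intro h
        apply ha1
        apply hnd
        intro y
        rw [h]; rfl
      obtain ⟨z0, hz1, hz2⟩ := exists_both h1 h2
      obtain ⟨z1, h3, h4⟩ : ∃ z1, pl Q a z1 = 1 ∧ pl Q v z1 ≠ 0 := by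
        refine ⟨(pl Q a z0)⁻¹ • z0, ?_, ?_⟩
        · rw [map_smul, smul_eq_mul, inv_mul_cancel₀ hz2]
        · rw [map_smul, smul_eq_mul]
          exact mul_ne_zero (inv_ne_zero hz2) hz1
      have h5 : pl Q z1 a = 1 := by rw [pl_comm, h3]
      apply hkey v (z1 - Q z1 • a)
      · rw [Q_sub_smul, ha, h5]
        ring
      · rw [map_sub, map_smul, hva, smul_zero, sub_zero]
        exact h4
    · exact hkey v a ha hva
  intro h _
  ext x
  rw [LinearEquiv.mul_apply, LinearEquiv.mul_apply, hall, hall, map_smul]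

end Vale.Agent.P318.R2.H356
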