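import Vale.Agent.P318.R2.H356.Chr

/-!
# The distance of a translate to the line of the vector
-/

open Finset
open scoped ComplexConjugate InnerProductSpace

set_option linter.unusedSectionVars false

namespace Vale.Agent.P318.R2.H356

variable {G : Type*} [Group G] [Fintype G] {α : G → ℂ}

/-- `√(1 - |α g|²)` -/
noncomputable def sd (α : G → ℂ) (g : G) : ℝ := Real.sqrt (1 - ‖α g‖ ^ 2)

lemma sd_nonneg (α : G → ℂ) (g : G) : 0 ≤ sd α g := Real.sqrt_nonneg _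

lemma sd_sq (hα : IsChr α) (g : G) : sd α g ^ 2 = 1 - ‖α g‖ ^ 2 :=
  Real.sq_sqrt (by nlinarith [hα.norm_le g, norm_nonneg (α g)])

lemma dist_sq {ξ x : Sp G} (h1 : ‖ξ‖ = 1) (hx : ‖x‖ = 1) (t : ℂ) :
    1 - ‖⟪ξ, x⟫_ℂ‖ ^ 2 ≤ ‖x - t • ξ‖ ^ 2 := by
  have hself : ⟪ξ, ξ⟫_ℂ = 1 := by
    rw [inner_self_eq_norm_sq_to_K, h1]; norm_num
  have h2 : ∀ s : ℂ, ⟪s • ξ, x - ⟪ξ, x⟫_ℂ • ξ⟫_ℂ = 0 := by
    intro s
    rw [inner_smul_left, inner_sub_right, inner_smul_right, hself]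
    simp
  have h3 := norm_add_sq_eq_norm_sq_add_norm_sq_of_inner_eq_zero _ _ (h2 (⟪ξ, x⟫_ℂ))
  rw [add_sub_cancel, hx, norm_smul, h1] at h3
  have h4 := norm_add_sq_eq_norm_sq_add_norm_sq_of_inner_eq_zero _ _ (h2 (⟪ξ, x⟫_ℂ - t))
  have h5 : (⟪ξ, x⟫_ℂ - t) • ξ + (x - ⟪ξ, x⟫_ℂ • ξ) = x - t • ξ := by
    rw [sub_smul]; abel
  rw [h5] at h4
  nlinarith [norm_nonneg ((⟪ξ, x⟫_ℂ - t) • ξ)]

lemma dist_eq {ξ x : Sp G} (h1 : ‖ξ‖ = 1) (hx : ‖x‖ = 1) :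
    ‖x - ⟪ξ, x⟫_ℂ • ξ‖ ^ 2 = 1 - ‖⟪ξ, x⟫_ℂ‖ ^ 2 := by
  have hself : ⟪ξ, ξ⟫_ℂ = 1 := by
    rw [inner_self_eq_norm_sq_to_K, h1]; norm_num
  have h2 : ⟪⟪ξ, x⟫_ℂ • ξ, x - ⟪ξ, x⟫_ℂ • ξ⟫_ℂ = 0 := by
    rw [inner_smul_left, inner_sub_right, inner_smul_right, hself]
    simp
  have h3 := norm_add_sq_eq_norm_sq_add_norm_sq_of_inner_eq_zero _ _ h2
  rw [add_sub_cancel, hx, norm_smul, h1] at h3
  nlinarith

lemma sd_eq {ξ : Sp G} (h1 : ‖ξ‖ = 1) (hξ : ∀ g, α g = ⟪ξ, U g ξ⟫_ℂ) (g : G) :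
    sd α g = ‖U g ξ - α g • ξ‖ := by
  unfold sd
  have h := dist_eq h1 (x := U g ξ) (by rw [norm_U, h1])
  rw [← hξ] at h
  rw [← h, Real.sqrt_sq (norm_nonneg _)]

lemma sd_mul (hα : IsChr α) (g h : G) : sd α (g * h) ≤ sd α g + sd α h := by
  obtain ⟨ξ, hξ⟩ := hα.rep
  have h1 := IsChr.norm_rep hα.one hξ
  have h2 := dist_sq h1 (x := U (g * h) ξ) (by rw [norm_U, h1]) (α h * α g)
  rw [← hξ] at h2
  have h3 : sd α (g * h) ≤ ‖U (g * h) ξ - (α h * α g) • ξ‖ := by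
    unfold sd
    rw [← Real.sqrt_sq (norm_nonneg (U (g * h) ξ - (α h * α g) • ξ))]
    exact Real.sqrt_le_sqrt h2
  have h4 : U (g * h) ξ - (α h * α g) • ξ =
      U g (U h ξ - α h • ξ) + α h • (U g ξ - α g • ξ) := by
    rw [map_sub, map_smul, ← U_mul, smul_sub, smul_smul]
    abel
  rw [h4] at h3
  refine h3.trans ((norm_add_le _ _).trans ?_)
  rw [norm_U, norm_smul, sd_eq h1 hξ g, sd_eq h1 hξ h]
  nlinarith [hα.norm_le h, norm_nonneg (U g ξ - α g • ξ), norm_nonneg (U h ξ - α h • ξ)]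

lemma sd_conj (hα : IsChr α) (x g : G) : sd α (x * g * x⁻¹) = sd α g := by
  unfold sd; rw [hα.cls]

lemma sd_inv (hα : IsChr α) (g : G) : sd α g⁻¹ = sd α g := by
  unfold sd; rw [hα.norm_inv]

lemma sd_eq_zero_iff (hα : IsChr α) (g : G) : sd α g = 0 ↔ ‖α g‖ = 1 := by
  constructor
  · intro h
    have h1 := sd_sq hα g
    rw [h] at h1
    have h2 := norm_nonneg (α g)
    have h3 := hα.norm_le g
    nlinarith
  · intro h
    unfold sd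
    rw [h]; norm_num

lemma sd_one (hα : IsChr α) : sd α 1 = 0 := by
  rw [sd_eq_zero_iff hα, hα.one]; simp

lemma sd_comm (hα : IsChr α) (g n : G) : sd α (g * n * g⁻¹ * n⁻¹) ≤ 2 * sd α g := by
  have h : g * n * g⁻¹ * n⁻¹ = g * (n * g⁻¹ * n⁻¹) := by group
  rw [h]
  have h1 := sd_mul hα g (n * g⁻¹ * n⁻¹)
  rw [sd_conj hα, sd_inv hα] at h1
  linarith

lemma sd_mul_of_one (hα : IsChr α) {z : G} (hz : ‖α z‖ = 1) (g : G) :
    sd α (g * z) = sd α g := by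
  unfold sd
  rw [hα.mul_of_norm_one hz, norm_mul, hz, mul_one]

/-- the subgroup where `α` is unimodular -/
def Zc (hα : IsChr α) : Subgroup G where
  carrier := {g | ‖α g‖ = 1}
  one_mem' := by simp [hα.one]
  mul_mem' := by
    intro g h hg hh
    have hg' : ‖α g‖ = 1 := hg
    have hh' : ‖α h‖ = 1 := hh
    show ‖α (g * h)‖ = 1
    rw [hα.mul_of_norm_one hh', norm_mul, hg', hh', one_mul]
  inv_mem' := by
    intro g hg
    have hg' : ‖α g‖ = 1 := hg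
    show ‖α g⁻¹‖ = 1
    rw [hα.norm_inv, hg']

lemma mem_Zc (hα : IsChr α) {g : G} : g ∈ Zc hα ↔ ‖α g‖ = 1 := Iff.rfl

instance Zc_normal (hα : IsChr α) : (Zc hα).Normal :=
  ⟨fun g hg x => by
    have hg' : ‖α g‖ = 1 := hg
    show ‖α (x * g * x⁻¹)‖ = 1
    rw [hα.cls, hg']⟩

end Vale.Agent.P318.R2.H356
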