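import Vale.Agent.P318.R2.H356.GapK

/-!
# Split BN-pairs: a gap of the character ratios
-/

namespace Vale.Agent.P318.R2.H356

open Vale.Agent.P318.R2.H402

/-- `T` has a split BN-pair `(U H, N)`, in the weak sense `T = U N U` with `H ≤ N` normalized by
`N` and normalizing `U`, and a subgroup `Z` central in `U` and normalized by `H` such that each
`n` in `N` normalizes `Z`, or some `n⁻¹ k n k⁻¹`, `k` in `H`, centralizes no `z ≠ 1` in `Z`, and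
`m` conjugates of `Z` generate `T`. -/
def SplitBN (T : Type) [Group T] (m : ℕ) : Prop :=
  ∃ U H N Z : Subgroup T, H ≤ N ∧ (∀ n ∈ N, ∀ h ∈ H, n⁻¹ * h * n ∈ H) ∧
    (∀ h ∈ H, ∀ u ∈ U, h * u * h⁻¹ ∈ U) ∧ (∀ h ∈ H, ∀ z ∈ Z, h * z * h⁻¹ ∈ Z) ∧
    Z ≤ U ∧ (∀ z ∈ Z, ∀ u ∈ U, z * u = u * z) ∧
    (∀ x, ∃ u ∈ U, ∃ n ∈ N, ∃ v ∈ U, x = u * n * v) ∧
    (∀ n ∈ N, (∀ z ∈ Z, n * z * n⁻¹ ∈ Z) ∨
      ∃ k ∈ H, ∀ z ∈ Z, n⁻¹ * k * n * k⁻¹ * z = z * (n⁻¹ * k * n * k⁻¹) → z = 1) ∧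
    ∃ g : Fin m → T, ⨆ i, Z.map (MulAut.conj (g i)).toMonoidHom = ⊤

/-- every element of `Z` is a product of at most four conjugates -/
lemma pr_splitBN {T : Type*} [Group T] [Finite T] [IsSimpleGroup T]
    (hna : ∃ a b : T, a * b ≠ b * a) {U H N Z : Subgroup T} (hHN : ∀ n ∈ N, ∀ h ∈ H,
      n⁻¹ * h * n ∈ H)
    (hHU : ∀ h ∈ H, ∀ u ∈ U, h * u * h⁻¹ ∈ U) (hHZ : ∀ h ∈ H, ∀ z ∈ Z, h * z * h⁻¹ ∈ Z)
    (hZU : Z ≤ U) (hZc : ∀ z ∈ Z, ∀ u ∈ U, z * u = u * z)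
    (hT : ∀ x, ∃ u ∈ U, ∃ n ∈ N, ∃ v ∈ U, x = u * n * v)
    (hN : ∀ n ∈ N, (∀ z ∈ Z, n * z * n⁻¹ ∈ Z) ∨
      ∃ k ∈ H, ∀ z ∈ Z, n⁻¹ * k * n * k⁻¹ * z = z * (n⁻¹ * k * n * k⁻¹) → z = 1)
    {x : T} (hx : x ≠ 1) {y : T} (hy : y ∈ Z) : Pr 4 x y := by
  by_cases hZ1 : Z = ⊥
  · rw [hZ1, Subgroup.mem_bot] at hy
    subst hy
    exact Pr.one 4 x
  -- a conjugate of `x` which does not normalize `Z`
  obtain ⟨g, z₀, hz₀, hg⟩ : ∃ g, ∃ z ∈ Z, g * x * g⁻¹ * z * (g * x * g⁻¹)⁻¹ ∉ Z := by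
    by_contra hcon
    push Not at hcon
    -- the elements all of whose conjugates normalize `Z`
    have hfin : ∀ a : T, (∀ z ∈ Z, a * z * a⁻¹ ∈ Z) → ∀ z ∈ Z, a⁻¹ * z * a ∈ Z := by
      intro a ha z hz
      have hinj : Function.Injective (fun z : Z => (⟨a * z * a⁻¹, ha z z.2⟩ : Z)) := by
        intro p q hpq
        have h1 := congrArg Subtype.val hpq
        have h2 : a * (p : T) * a⁻¹ = a * (q : T) * a⁻¹ := h1
        exact Subtype.ext (mul_left_cancel (mul_right_cancel h2))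
      obtain ⟨w, hw⟩ := (Finite.injective_iff_surjective.1 hinj) ⟨z, hz⟩
      have h3 : a * (w : T) * a⁻¹ = z := congrArg Subtype.val hw
      have h4 : a⁻¹ * z * a = w := by rw [← h3]; group
      rw [h4]
      exact w.2
    let K : Subgroup T := {
      carrier := {a | ∀ g, ∀ z ∈ Z, g * a * g⁻¹ * z * (g * a * g⁻¹)⁻¹ ∈ Z}
      mul_mem' := by
        intro a b ha hb g z hz
        have h1 := ha g _ (hb g z hz)
        have e : g * (a * b) * g⁻¹ * z * (g * (a * b) * g⁻¹)⁻¹ =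
            g * a * g⁻¹ * (g * b * g⁻¹ * z * (g * b * g⁻¹)⁻¹) * (g * a * g⁻¹)⁻¹ := by group
        rw [e]
        exact h1
      one_mem' := by
        intro g z hz
        have e : g * 1 * g⁻¹ * z * (g * 1 * g⁻¹)⁻¹ = z := by group
        rw [e]
        exact hz
      inv_mem' := by
        intro a ha g z hz
        have h1 := hfin (g * a * g⁻¹) (ha g) z hz
        have e : g * a⁻¹ * g⁻¹ * z * (g * a⁻¹ * g⁻¹)⁻¹ =
            (g * a * g⁻¹)⁻¹ * z * (g * a * g⁻¹) := by group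
        rw [e]
        exact h1 }
    have hK : K.Normal := by
      constructor
      intro a ha b g z hz
      have h1 := ha (g * b) z hz
      have e : g * (b * a * b⁻¹) * g⁻¹ * z * (g * (b * a * b⁻¹) * g⁻¹)⁻¹ =
          g * b * a * (g * b)⁻¹ * z * (g * b * a * (g * b)⁻¹)⁻¹ := by group
      rw [e]
      exact h1
    have hxK : x ∈ K := hcon
    rcases hK.eq_bot_or_eq_top with h | h
    · rw [h, Subgroup.mem_bot] at hxK
      exact hx hxK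
    · have hZn : Z.Normal := by
        constructor
        intro z hz a
        have h1 : a ∈ K := by rw [h]; trivial
        have h2 := h1 1 z hz
        have e : 1 * a * 1⁻¹ * z * (1 * a * 1⁻¹)⁻¹ = a * z * a⁻¹ := by group
        rwa [e] at h2
      rcases hZn.eq_bot_or_eq_top with h5 | h5
      · exact hZ1 h5
      · obtain ⟨a, b, hab⟩ := hna
        apply hab
        have h6 : ∀ z : T, z ∈ Z := fun z => by rw [h5]; trivial
        exact hZc a (h6 a) b (hZU (h6 b))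
  obtain ⟨u, hu, n, hn, v, hv, huv⟩ := hT (g * x * g⁻¹)
  -- `n` does not normalize `Z`
  have hnZ : ¬ ∀ z ∈ Z, n * z * n⁻¹ ∈ Z := by
    intro h
    apply hg
    rw [huv]
    have e1 : u * n * v * z₀ * (u * n * v)⁻¹ = u * (n * (v * z₀ * v⁻¹) * n⁻¹) * u⁻¹ := by group
    have e2 : v * z₀ * v⁻¹ = z₀ := by rw [← hZc z₀ hz₀ v hv]; group
    have h1 := h z₀ hz₀
    rw [e1, e2, ← hZc _ h1 u hu, mul_inv_cancel_right]
    exact h1
  obtain ⟨k, hk, hkZ⟩ := (hN n hn).resolve_left hnZ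
  set w := v * u with hw
  have hwU : w ∈ U := U.mul_mem hv hu
  have hkk : n⁻¹ * k * n ∈ H := hHN n hn k hk
  set t := n⁻¹ * k * n * k⁻¹ with ht
  have htH : t ∈ H := H.mul_mem hkk (H.inv_mem hk)
  set w' := w⁻¹ * (n⁻¹ * k * n * w * (n⁻¹ * k * n)⁻¹) with hw'
  have hw'U : w' ∈ U := U.mul_mem (U.inv_mem hwU) (hHU _ hkk w hwU)
  -- `n w` is conjugate to `x`
  have hnw : IsConj x (n * w) := by
    have h1 : IsConj x (g * x * g⁻¹) := isConj_iff.2 ⟨g, rfl⟩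
    refine h1.trans (isConj_iff.2 ⟨u⁻¹, ?_⟩)
    rw [huv, hw]
    group
  have h2 : Pr 2 x (w' * t) := by
    have h3 : Pr 1 x (n * w)⁻¹ := (Pr.inv_self x).isConj (by
      obtain ⟨c, hc⟩ := isConj_iff.1 hnw
      exact isConj_iff.2 ⟨c, by rw [← hc]; group⟩)
    have h4 : Pr 1 x (k * (n * w) * k⁻¹) := ((Pr.self x).isConj hnw).conj k
    have h5 := h3.mul h4
    have e : (n * w)⁻¹ * (k * (n * w) * k⁻¹) = w' * t := by
      rw [hw', ht]
      group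
    rw [e] at h5
    exact h5
  -- the commutators with `Z`
  have h6 : ∀ z ∈ Z, Pr 4 x (t * z * t⁻¹ * z⁻¹) := by
    intro z hz
    have h8 := (h2.mul (h2.inv.conj z))
    have hz' : t * z * t⁻¹ ∈ Z := hHZ t htH z hz
    have e : w' * t * (z * (w' * t)⁻¹ * z⁻¹) = t * z * t⁻¹ * z⁻¹ := by
      have e1 : w' * t * (z * (w' * t)⁻¹ * z⁻¹) = w' * (t * z * t⁻¹) * w'⁻¹ * z⁻¹ := by group
      rw [e1, ← hZc _ hz' w' hw'U, mul_inv_cancel_right]
    rw [e] at h8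
    exact h8
  -- the map is onto
  have hcomm : ∀ z ∈ Z, ∀ z' ∈ Z, z * z' = z' * z := fun z hz z' hz' => hZc z hz z' (hZU hz')
  have hinj : Function.Injective (fun z : Z => (⟨t * z * t⁻¹ * (z : T)⁻¹,
      Z.mul_mem (hHZ t htH z z.2) (Z.inv_mem z.2)⟩ : Z)) := by
    intro p q hpq
    have h1 : t * (p : T) * t⁻¹ * (p : T)⁻¹ = t * (q : T) * t⁻¹ * (q : T)⁻¹ :=
      congrArg Subtype.val hpq
    have hpq' : (p : T) * (q : T)⁻¹ ∈ Z := Z.mul_mem p.2 (Z.inv_mem q.2)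
    have h3 : (p : T) * (q : T)⁻¹ = 1 := by
      apply hkZ _ hpq'
      have hqi := Z.inv_mem q.2
      have hpi := Z.inv_mem p.2
      -- t p q⁻¹ t⁻¹ = p q⁻¹
      have h4 : t * (p : T) * t⁻¹ = t * (q : T) * t⁻¹ * (q : T)⁻¹ * p := by
        rw [← h1]; group
      have h5 : t * ((p : T) * (q : T)⁻¹) * t⁻¹ = (p : T) * (q : T)⁻¹ := by
        have e1 : t * ((p : T) * (q : T)⁻¹) * t⁻¹ =
            (t * (p : T) * t⁻¹) * (t * (q : T) * t⁻¹)⁻¹ := by group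
        have hA : t * (q : T) * t⁻¹ ∈ Z := hHZ t htH q q.2
        rw [e1, h4]
        have h6 : t * (q : T) * t⁻¹ * (q : T)⁻¹ * p = ((q : T)⁻¹ * p) * (t * (q : T) * t⁻¹) := by
          rw [mul_assoc, hcomm _ hA _ (Z.mul_mem hqi p.2)]
        rw [h6, mul_inv_cancel_right, hcomm _ hqi _ p.2]
      calc t * ((p : T) * (q : T)⁻¹) = t * ((p : T) * (q : T)⁻¹) * t⁻¹ * t := by group
        _ = _ := by rw [h5]
    exact Subtype.ext (mul_inv_eq_one.1 h3)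
  obtain ⟨z, hz⟩ := (Finite.injective_iff_surjective.1 hinj) ⟨y, hy⟩
  have h9 : t * (z : T) * t⁻¹ * (z : T)⁻¹ = y := congrArg Subtype.val hz
  rw [← h9]
  exact h6 z z.2

/-- **The gap of a simple group with a split BN-pair.** -/
theorem gap_splitBN {T : Type} [Group T] [Finite T] [IsSimpleGroup T]
    (hna : ∃ a b : T, a * b ≠ b * a) {m : ℕ} (h : SplitBN T m) :
    H678.Gap T (1 / (16 * (m : ℝ))) := by
  obtain ⟨U, H, N, Z, -, hHN, hHU, hHZ, hZU, hZc, hT, hN, g, hg⟩ := h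
  have h1 := gap_of_family (m := 4) (by norm_num) _ hg (by
    rintro x hx i _ ⟨z, hz, rfl⟩
    exact (pr_splitBN hna hHN hHU hHZ hZU hZc hT hN hx hz).conj (g i))
  have e : (m : ℝ) * ((4 : ℕ) : ℝ) ^ 2 = 16 * m := by push_cast; ring
  rw [e] at h1
  exact h1

end Vale.Agent.P318.R2.H356
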